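import Mathlib
import Crest.Prelude.Def_LinCircuit

/-!
Row 324: an abstract cost calculus for linear circuits.
-/

set_option autoImplicit false

open Set

namespace Crest.Agent.R324

section Der

variable {M : Type} [AddCommGroup M] [Module ℂ M]

/-- from the available set `S`, at most `n` gates make all of `T` available -/
inductive DerN : Set M → ℕ → Set M → Prop
  | done {S T : Set M} {n : ℕ} : T ⊆ insert 0 S → DerN S n T
  | add {S T : Set M} {n : ℕ} (u v : M) : u ∈ insert 0 S → v ∈ insert 0 S →
      DerN (insert (u + v) S) n T → DerN S (n + 1) T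
  | smul {S T : Set M} {n : ℕ} (c : ℂ) (u : M) : u ∈ insert 0 S →
      DerN (insert (c • u) S) n T → DerN S (n + 1) T

theorem DerN.mono_left {S T : Set M} {n : ℕ} (h : DerN S n T) {S' : Set M} (hS : S ⊆ insert 0 S') :
    DerN S' n T := by
  induction h generalizing S' with
  | done h => exact .done (h.trans (insert_subset (mem_insert _ _) hS))
  | add u v hu hv _ ih =>
    have key := insert_subset (mem_insert _ _) hS
    refine .add u v (key hu) (key hv) (ih (insert_subset (by simp) (hS.trans ?_)))
    exact insert_subset_insert (subset_insert _ _)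
  | smul c u hu _ ih =>
    have key := insert_subset (mem_insert _ _) hS
    refine .smul c u (key hu) (ih (insert_subset (by simp) (hS.trans ?_)))
    exact insert_subset_insert (subset_insert _ _)

theorem DerN.mono_n {S T : Set M} {n : ℕ} (h : DerN S n T) {m : ℕ} (hm : n ≤ m) : DerN S m T := by
  induction h generalizing m with
  | done h => exact .done h
  | add u v hu hv _ ih =>
    obtain ⟨m, rfl⟩ : ∃ k, m = k + 1 := ⟨m - 1, by omega⟩
    exact .add u v hu hv (ih (by omega))
  | smul c u hu _ ih =>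
    obtain ⟨m, rfl⟩ : ∃ k, m = k + 1 := ⟨m - 1, by omega⟩
    exact .smul c u hu (ih (by omega))

theorem DerN.trans {S T U : Set M} {n m : ℕ} (h : DerN S n T) (h' : DerN (S ∪ T) m U) :
    DerN S (n + m) U := by
  induction h with
  | done h => exact (h'.mono_left (union_subset (subset_insert _ _) h)).mono_n (by omega)
  | add u v hu hv _ ih =>
    rw [Nat.add_right_comm]
    refine .add u v hu hv (ih (h'.mono_left ?_))
    exact (union_subset_union_left _ (subset_insert _ _)).trans (subset_insert _ _)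
  | smul c u hu _ ih =>
    rw [Nat.add_right_comm]
    refine .smul c u hu (ih (h'.mono_left ?_))
    exact (union_subset_union_left _ (subset_insert _ _)).trans (subset_insert _ _)

theorem DerN.mono_right {S T : Set M} {n : ℕ} (h : DerN S n T) {T' : Set M} (hT : T' ⊆ S ∪ T) :
    DerN S n T' := h.trans (m := 0) (.done (hT.trans (subset_insert _ _)))

/-- real-valued cost bound -/
def Der (S : Set M) (c : ℝ) (T : Set M) : Prop := ∃ n : ℕ, (n : ℝ) ≤ c ∧ DerN S n T

theorem Der.of_subset {S T : Set M} (h : T ⊆ S) : Der S 0 T :=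
  ⟨0, by simp, .done (h.trans (subset_insert _ _))⟩

theorem Der.nonneg {S T : Set M} {c : ℝ} (h : Der S c T) : 0 ≤ c := by
  obtain ⟨n, hn, -⟩ := h
  exact (Nat.cast_nonneg n).trans hn

theorem Der.mono {S T S' T' : Set M} {c c' : ℝ} (h : Der S c T) (hS : S ⊆ S') (hc : c ≤ c')
    (hT : T' ⊆ T) : Der S' c' T' := by
  obtain ⟨n, hn, h⟩ := h
  exact ⟨n, hn.trans hc, (h.mono_right (hT.trans subset_union_right)).mono_left
    (hS.trans (subset_insert _ _))⟩

theorem Der.le {S T : Set M} {c c' : ℝ} (h : Der S c T) (hc : c ≤ c') : Der S c' T :=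
  h.mono subset_rfl hc subset_rfl

theorem Der.left {S T S' : Set M} {c : ℝ} (h : Der S c T) (hS : S ⊆ S') : Der S' c T :=
  h.mono hS le_rfl subset_rfl

theorem Der.right {S T T' : Set M} {c : ℝ} (h : Der S c T) (hT : T' ⊆ T) : Der S c T' :=
  h.mono subset_rfl le_rfl hT

theorem Der.trans' {S T U : Set M} {c c' : ℝ} (h : Der S c T) (h' : Der (S ∪ T) c' U) :
    Der S (c + c') U := by
  obtain ⟨n, hn, h⟩ := h
  obtain ⟨m, hm, h'⟩ := h'
  exact ⟨n + m, by push_cast; linarith, h.trans h'⟩

theorem Der.trans {S T U : Set M} {c c' : ℝ} (h : Der S c T) (h' : Der T c' U) :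
    Der S (c + c') U := h.trans' (h'.left subset_union_right)

theorem Der.keep {S T : Set M} {c : ℝ} (h : Der S c T) : Der S c (S ∪ T) := by
  simpa using h.trans' (Der.of_subset subset_rfl)

theorem Der.union {S T T' : Set M} {c c' : ℝ} (h : Der S c T) (h' : Der S c' T') :
    Der S (c + c') (T ∪ T') :=
  h.trans' ((h'.left subset_union_left).keep.right
    (union_subset (subset_union_right.trans subset_union_left) subset_union_right))

theorem Der.biUnion {S : Set M} {ι : Type*} (J : Finset ι) {T : ι → Set M} {c : ι → ℝ}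
    (h : ∀ i ∈ J, Der S (c i) (T i)) : Der S (∑ i ∈ J, c i) (⋃ i ∈ J, T i) := by
  classical
  induction J using Finset.induction_on with
  | empty => simpa using Der.of_subset (empty_subset S)
  | insert a J ha ih =>
    rw [Finset.sum_insert ha, Finset.set_biUnion_insert]
    exact (h a (Finset.mem_insert_self _ _)).union
      (ih fun i hi => h i (Finset.mem_insert_of_mem hi))

theorem Der.iUnion {S : Set M} {ι : Type*} [Fintype ι] {T : ι → Set M} {c : ι → ℝ}
    (h : ∀ i, Der S (c i) (T i)) : Der S (∑ i, c i) (⋃ i, T i) := by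
  simpa using Der.biUnion Finset.univ (fun i _ => h i)

theorem Der.iUnion_const {S : Set M} {ι : Type*} [Fintype ι] {T : ι → Set M} {c : ℝ}
    (h : ∀ i, Der S c (T i)) : Der S (Fintype.card ι * c) (⋃ i, T i) := by
  simpa using Der.iUnion h

theorem Der.smul {S : Set M} (c : ℂ) {u : M} (hu : u ∈ S) : Der S 1 {c • u} :=
  ⟨1, by simp, .smul c u (mem_insert_of_mem _ hu) (.done (by simp))⟩

theorem Der.add {S : Set M} {u v : M} (hu : u ∈ S) (hv : v ∈ S) : Der S 1 {u + v} :=
  ⟨1, by simp, .add u v (mem_insert_of_mem _ hu) (mem_insert_of_mem _ hv) (.done (by simp))⟩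

theorem Der.zero (S : Set M) : Der S 0 {0} := ⟨0, by simp, .done (by simp)⟩

theorem Der.sum {S : Set M} {ι : Type*} (J : Finset ι) (β : ι → ℂ) {u : ι → M}
    (hu : ∀ j ∈ J, u j ∈ S) : Der S (2 * J.card) {∑ j ∈ J, β j • u j} := by
  classical
  induction J using Finset.induction_on with
  | empty => simpa using Der.zero S
  | insert a J ha ih =>
    rw [Finset.sum_insert ha, Finset.card_insert_of_notMem ha]
    have h1 := (Der.smul (β a) (hu a (Finset.mem_insert_self _ _))).union
      (ih fun i hi => hu i (Finset.mem_insert_of_mem hi))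
    refine (h1.trans (Der.add (Or.inl rfl) (Or.inr rfl))).le ?_
    push_cast; linarith

/-- a matrix applied to a family of elements -/
def app {ι κ : Type*} [Fintype ι] (K : Matrix κ ι ℂ) (x : ι → M) : κ → M :=
  fun p => ∑ q, K p q • x q

theorem app_mul {ι κ μ : Type*} [Fintype ι] [Fintype κ] (K : Matrix μ κ ℂ) (K' : Matrix κ ι ℂ)
    (x : ι → M) : app (K * K') x = app K (app K' x) := by
  ext p
  simp only [app, Matrix.mul_apply, Finset.sum_smul, Finset.smul_sum, mul_smul]
  exact Finset.sum_comm

theorem app_one {ι : Type*} [Fintype ι] [DecidableEq ι] (x : ι → M) :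
    app (1 : Matrix ι ι ℂ) x = x := by
  ext p
  simp [app, Matrix.one_apply]

theorem app_add {ι κ : Type*} [Fintype ι] (K : Matrix κ ι ℂ) (x y : ι → M) :
    app K (x + y) = app K x + app K y := by
  ext p; simp [app, Finset.sum_add_distrib]

theorem app_smul {ι κ : Type*} [Fintype ι] (K : Matrix κ ι ℂ) (c : ℂ) (x : ι → M) :
    app K (c • x) = c • app K x := by
  ext p; simp [app, Finset.smul_sum, smul_comm c]

/-- `app` as a linear map -/
def appL {ι κ : Type*} [Fintype ι] (K : Matrix κ ι ℂ) : (ι → M) →ₗ[ℂ] (κ → M) where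
  toFun := app K
  map_add' := app_add K
  map_smul' := app_smul K

variable (M) in
/-- the matrix `K` costs at most `c` gates -/
def Cost {ι κ : Type*} [Fintype ι] (K : Matrix κ ι ℂ) (c : ℝ) : Prop :=
  ∀ x : ι → M, Der (range x) c (range (app K x))

theorem Cost.le {ι κ : Type*} [Fintype ι] {K : Matrix κ ι ℂ} {c c' : ℝ} (h : Cost M K c)
    (hc : c ≤ c') : Cost M K c' := fun x => (h x).le hc

theorem Cost.mul {ι κ μ : Type*} [Fintype ι] [Fintype κ] {K : Matrix μ κ ℂ} {K' : Matrix κ ι ℂ}
    {c c' : ℝ} (h : Cost M K c) (h' : Cost M K' c') : Cost M (K * K') (c + c') := fun x => by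
  rw [app_mul, add_comm]
  exact (h' x).trans (h _)

theorem cost_one {ι : Type*} [Fintype ι] [DecidableEq ι] : Cost M (1 : Matrix ι ι ℂ) 0 :=
  fun x => by rw [app_one]; exact Der.of_subset subset_rfl

theorem Cost.submatrix {ι κ ι' κ' : Type*} [Fintype ι] [Fintype ι'] {K : Matrix κ ι ℂ} {c : ℝ}
    (h : Cost M K c) (f : κ' → κ) (e : ι' ≃ ι) : Cost M (K.submatrix f e) c := fun x => by
  refine (h (x ∘ e.symm)).mono (range_comp_subset_range _ _) le_rfl ?_
  rintro _ ⟨p, rfl⟩
  refine ⟨f p, ?_⟩
  simp only [app, Matrix.submatrix_apply, Function.comp]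
  rw [← e.sum_comp]
  simp

/-- weighted selection matrix -/
def mono {ι κ : Type*} [DecidableEq ι] (σ : κ → ι) (d : κ → ℂ) : Matrix κ ι ℂ :=
  Matrix.of fun p q => if q = σ p then d p else 0

theorem app_mono {ι κ : Type*} [Fintype ι] [DecidableEq ι] (σ : κ → ι) (d : κ → ℂ) (x : ι → M)
    (p : κ) : app (mono σ d) x p = d p • x (σ p) := by
  simp [app, mono]

theorem cost_mono {ι κ : Type*} [Fintype ι] [DecidableEq ι] [Fintype κ] (σ : κ → ι) (d : κ → ℂ) :
    Cost M (mono σ d) (Fintype.card κ) := fun x => by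
  have := Der.iUnion_const (S := range x) (T := fun p : κ => {d p • x (σ p)})
    fun p => Der.smul (d p) (mem_range_self _)
  refine this.mono subset_rfl (by simp) ?_
  rintro _ ⟨p, rfl⟩
  exact mem_iUnion.2 ⟨p, app_mono σ d x p⟩

theorem cost_sel {ι κ : Type*} [Fintype ι] [DecidableEq ι] (σ : κ → ι) :
    Cost M (mono σ 1) 0 := fun x => by
  refine Der.of_subset ?_
  rintro _ ⟨p, rfl⟩
  exact ⟨σ p, by simp [app_mono]⟩

/-- any matrix with a single nonzero entry in each column is cheap -/
theorem cost_mono_transpose {ι κ : Type*} [Fintype ι] [DecidableEq κ] [Fintype κ] (σ : ι → κ) :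
    Cost M (mono σ 1).transpose (2 * Fintype.card ι) := fun x => by
  have := Der.iUnion (S := range x)
    (T := fun p : κ => {∑ j ∈ Finset.univ.filter (fun q => σ q = p), (1 : ℂ) • x j})
    fun p => Der.sum _ _ fun j _ => mem_range_self j
  refine this.mono subset_rfl (le_of_eq ?_) ?_
  · rw [← Finset.mul_sum, ← Nat.cast_sum, ← Finset.card_eq_sum_card_fiberwise (f := σ) (by simp)]
    simp
  · rintro _ ⟨p, rfl⟩
    refine mem_iUnion.2 ⟨p, ?_⟩
    simp [app, mono, Finset.sum_filter, eq_comm]

open Kronecker in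
theorem app_one_kron {β ι κ : Type*} [Fintype β] [DecidableEq β] [Fintype ι] (K : Matrix κ ι ℂ)
    (x : β × ι → M) (b : β) (p : κ) :
    app ((1 : Matrix β β ℂ) ⊗ₖ K) x (b, p) = app K (fun q => x (b, q)) p := by
  simp [app, Fintype.sum_prod_type, Matrix.one_apply, ite_smul, Finset.sum_ite_eq]

open Kronecker in
theorem Cost.one_kron {ι κ : Type*} [Fintype ι] {K : Matrix κ ι ℂ} {c : ℝ} (h : Cost M K c)
    (β : Type*) [Fintype β] [DecidableEq β] :
    Cost M ((1 : Matrix β β ℂ) ⊗ₖ K) (Fintype.card β * c) := fun x => by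
  have := Der.iUnion_const (S := range x) (T := fun b : β => range (app K fun q => x (b, q)))
    fun b => (h _).left (by rintro _ ⟨q, rfl⟩; exact mem_range_self _)
  refine this.right ?_
  rintro _ ⟨⟨b, p⟩, rfl⟩
  exact mem_iUnion.2 ⟨b, p, (app_one_kron K x b p).symm⟩

open Kronecker in
theorem Cost.kron_one {ι κ : Type*} [Fintype ι] {K : Matrix κ ι ℂ} {c : ℝ} (h : Cost M K c)
    (β : Type*) [Fintype β] [DecidableEq β] :
    Cost M (K ⊗ₖ (1 : Matrix β β ℂ)) (Fintype.card β * c) := by
  have := (h.one_kron β).submatrix Prod.swap (Equiv.prodComm ι β)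
  convert this using 1
  ext ⟨p, b⟩ ⟨q, b'⟩
  simp [mul_comm]

end Der

section Circuit

open Crest.FourierCircuit

variable {n : ℕ}

/-- the list of values after running the gates -/
def vals (gs : List LGate) (x : Fin n → ℂ) : List ℂ :=
  gs.foldl (fun avail g => avail ++ [g.value avail]) (List.ofFn x ++ [0])

theorem vals_snoc (gs : List LGate) (g : LGate) (x : Fin n → ℂ) :
    vals (gs ++ [g]) x = vals gs x ++ [g.value (vals gs x)] := by
  simp [vals]

theorem length_vals (gs : List LGate) (x : Fin n → ℂ) : (vals gs x).length = n + 1 + gs.length := by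
  induction gs using List.reverseRecOn with
  | nil => simp [vals]
  | append_singleton gs g ih => rw [vals_snoc]; simp [ih]; omega

/-- functions available after the gates -/
def Avail (n : ℕ) (gs : List LGate) : Set ((Fin n → ℂ) → ℂ) :=
  {u | ∃ k, k < n + 1 + gs.length ∧ ∀ x, (vals gs x).getD k 0 = u x}

theorem avail_snoc (gs : List LGate) (g : LGate) :
    insert (fun x => g.value (vals gs x)) (Avail n gs) ⊆ Avail n (gs ++ [g]) := by
  rintro u (rfl | ⟨k, hk, hu⟩)
  · refine ⟨n + 1 + gs.length, by simp, fun x => ?_⟩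
    rw [vals_snoc, List.getD_append_right _ _ _ _ (by rw [length_vals]), length_vals]
    simp
  · refine ⟨k, by simp; omega, fun x => ?_⟩
    rw [vals_snoc, List.getD_append _ _ _ _ (by rw [length_vals]; exact hk), hu]

theorem zero_mem_avail (gs : List LGate) : (0 : (Fin n → ℂ) → ℂ) ∈ Avail n gs := by
  induction gs using List.reverseRecOn with
  | nil =>
    refine ⟨n, by simp, fun x => ?_⟩
    simp [vals]
  | append_singleton gs g ih => exact avail_snoc gs g (Or.inr ih)

theorem DerN.circuit {S T : Set ((Fin n → ℂ) → ℂ)} {m : ℕ} (h : DerN S m T) (gs : List LGate)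
    (hS : S ⊆ Avail n gs) : ∃ gs' : List LGate, gs'.length ≤ gs.length + m ∧ T ⊆ Avail n gs' := by
  induction h generalizing gs with
  | done h => exact ⟨gs, by omega, h.trans (insert_subset (zero_mem_avail gs) hS)⟩
  | add u v hu hv _ ih =>
    have key := insert_subset (zero_mem_avail gs) hS
    obtain ⟨j, -, hj⟩ := key hu
    obtain ⟨k, -, hk⟩ := key hv
    have e : u + v = fun x => (LGate.add j k).value (vals gs x) := by
      ext x; simp only [LGate.value, hj, hk, Pi.add_apply]
    obtain ⟨gs', h1, h2⟩ := ih (gs ++ [.add j k])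
      ((insert_subset_insert hS).trans (e ▸ avail_snoc gs _))
    exact ⟨gs', by simp at h1; omega, h2⟩
  | smul c u hu _ ih =>
    have key := insert_subset (zero_mem_avail gs) hS
    obtain ⟨j, -, hj⟩ := key hu
    have e : c • u = fun x => (LGate.smul c j).value (vals gs x) := by
      ext x; simp only [LGate.value, hj, Pi.smul_apply, smul_eq_mul]
    obtain ⟨gs', h1, h2⟩ := ih (gs ++ [.smul c j])
      ((insert_subset_insert hS).trans (e ▸ avail_snoc gs _))
    exact ⟨gs', by simp at h1; omega, h2⟩

theorem Cost.circuit {A : Matrix (Fin n) (Fin n) ℂ} {c : ℝ} (h : Cost ((Fin n → ℂ) → ℂ) A c) :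
    ∃ P : LinCircuit n, P.Computes A ∧ (P.size : ℝ) ≤ c := by
  obtain ⟨m, hm, h⟩ := h fun i x => x i
  obtain ⟨gs, h1, h2⟩ := h.circuit [] (by
    rintro _ ⟨i, rfl⟩
    refine ⟨i, by simp, fun x => ?_⟩
    simp only [vals, List.foldl_nil]
    rw [List.getD_append _ _ _ _ (by simp)]
    simp)
  choose out _ hout using fun k => h2 (mem_range_self k)
  refine ⟨⟨gs, out⟩, fun x k => ?_, ?_⟩
  · refine (hout k x).trans ?_
    simp [app, Matrix.mulVec, dotProduct]
  · refine le_trans ?_ hm
    simpa [LinCircuit.size] using h1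

end Circuit

end Crest.Agent.R324
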