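import Crest.Agent.R324.Fft

/-!
Row 324: every Fourier matrix of order `s` is a product of `O(log² s)` in-place layers.
-/

set_option autoImplicit false

open Matrix

namespace Crest.Agent.R324

/-- coefficient at an integer index -/
noncomputable def cf (t : PowerSeries ℂ) (d : ℤ) : ℂ :=
  if 0 ≤ d then PowerSeries.coeff d.toNat t else 0

theorem cf_sub (t : PowerSeries ℂ) (i j : ℕ) :
    cf t ((i : ℤ) - j) = if j ≤ i then PowerSeries.coeff (i - j) t else 0 := by
  simp only [cf, sub_nonneg, Nat.cast_le]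
  split_ifs with h
  · congr 2; omega
  · rfl

/-- lower triangular Toeplitz matrix -/
noncomputable def LT (s : ℕ) (t : PowerSeries ℂ) : Matrix (Fin s) (Fin s) ℂ :=
  toep (cf t) Fin.val Fin.val

theorem LT_apply (s : ℕ) (t : PowerSeries ℂ) (i j : Fin s) :
    LT s t i j = if j.val ≤ i.val then PowerSeries.coeff (i.val - j.val) t else 0 := cf_sub t i j

theorem LT_one (s : ℕ) : LT s 1 = 1 := by
  ext i j
  rw [LT_apply, PowerSeries.coeff_one, one_apply]
  by_cases h : i = j
  · simp [h]
  · have : i.val ≠ j.val := fun e => h (Fin.ext e)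
    rw [if_neg h]
    split_ifs <;> first | rfl | omega

theorem LT_mul (s : ℕ) (t u : PowerSeries ℂ) : LT s (t * u) = LT s t * LT s u := by
  ext i j
  simp only [Matrix.mul_apply, LT_apply]
  rw [Fin.sum_univ_eq_sum_range fun m => (if m ≤ i.val then PowerSeries.coeff (i.val - m) t else 0)
    * if j.val ≤ m then PowerSeries.coeff (m - j.val) u else 0]
  split_ifs with h
  · rw [PowerSeries.coeff_mul]
    have hi := i.2
    refine Finset.sum_of_injOn (fun x => j.val + x.2) ?_ ?_ ?_ ?_
    · rintro ⟨a, b⟩ h1 ⟨a', b'⟩ h2 h3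
      simp only [Finset.mem_coe, Finset.HasAntidiagonal.mem_antidiagonal] at h1 h2 h3
      ext <;> simp only <;> omega
    · rintro ⟨a, b⟩ h1
      simp only [Finset.mem_coe, Finset.HasAntidiagonal.mem_antidiagonal, Finset.mem_range] at h1 ⊢
      omega
    · intro m _ hm
      split_ifs with h1 h2
      · exact (hm ⟨(i.val - m, m - j.val), by simp; omega, by simp; omega⟩).elim
      all_goals simp
    · rintro ⟨a, b⟩ h1
      simp only [Finset.HasAntidiagonal.mem_antidiagonal] at h1
      rw [if_pos (by omega), if_pos (by omega)]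
      congr 3 <;> omega
  · refine (Finset.sum_eq_zero fun m _ => ?_).symm
    split_ifs <;> first | omega | simp

theorem lay_LT (k : ℕ) : ∀ s ≤ 2 ^ k, ∀ t : PowerSeries ℂ, PowerSeries.constantCoeff t = 1 →
    Lay (2000000 * (k + 1) ^ 2) (LT s t) := by
  induction k with
  | zero =>
    intro s hs t ht
    refine (Lay.zero.congr rfl ?_).le (Nat.zero_le _)
    ext i j
    have : i = j := Fin.ext (by omega)
    subst this
    simp [LT_apply, ht]
  | succ k ih =>
    intro s hs t ht
    obtain ⟨a, b, ha, hb, rfl⟩ : ∃ a b, a ≤ 2 ^ k ∧ b ≤ 2 ^ k ∧ s = a + b :=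
      ⟨s / 2, s - s / 2, by rw [pow_succ] at hs; omega, by rw [pow_succ] at hs; omega, by omega⟩
    have hp : Function.Injective fun i : Fin b => a + i.val := fun i j h => Fin.ext (by
      simpa using h)
    have h1 := (sh_toep_mul (cf t⁻¹) (cf t) hp hp (Fin.val_injective (n := a)) (k + 1) (a + b) hs
      (fun i => by omega) (fun i => by omega) (fun i => by omega)).lay (by simp)
    have h2 : toep (cf t⁻¹) (fun i : Fin b => a + i.val) (fun i : Fin b => a + i.val) =
        LT b t⁻¹ := by
      ext i j; simp [toep, LT]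
    refine (((((ih a ha t ht).blocks (ih b hb t ht)).mul h1).submatrix
      finSumFinEquiv.symm).congr rfl ?_).le (by
        rw [← mul_add]; exact Nat.mul_le_mul_left _ (by nlinarith))
    rw [h2, fromBlocks_multiply, ← Matrix.mul_assoc (LT b t), ← LT_mul,
      PowerSeries.mul_inv_cancel t (by simp [ht]), LT_one]
    ext i j
    obtain ⟨i, rfl⟩ := finSumFinEquiv.surjective i
    obtain ⟨j, rfl⟩ := finSumFinEquiv.surjective j
    simp only [submatrix_apply, Equiv.symm_apply_apply]
    rcases i with i | i <;> rcases j with j | j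
    · simp [LT, toep]
    · have : ¬ (a + j.val ≤ i.val) := by omega
      simp [LT_apply, this]
    · simp [LT, toep]
    · simp [LT, toep]

/-- Gaussian binomial coefficient -/
noncomputable def gb (q : ℂ) : ℕ → ℕ → ℂ
  | _, 0 => 1
  | 0, _ + 1 => 0
  | j + 1, i + 1 => gb q j i + q ^ (i + 1) * gb q j (i + 1)

/-- `q`-factorial -/
noncomputable def qf (q : ℂ) (n : ℕ) : ℂ := ∏ r ∈ Finset.range n, (q ^ (r + 1) - 1)

theorem gb_zero (q : ℂ) (j : ℕ) : gb q j 0 = 1 := by cases j <;> rfl

theorem gb_lt (q : ℂ) : ∀ j i, j < i → gb q j i = 0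
  | _, 0, h => by omega
  | 0, _ + 1, _ => rfl
  | j + 1, i + 1, h => by rw [gb, gb_lt q j i (by omega), gb_lt q j (i + 1) (by omega)]; simp

theorem gb_mul (q : ℂ) (i : ℕ) : ∀ d, gb q (i + d) i * (qf q i * qf q d) = qf q (i + d) := by
  induction i with
  | zero => simp [gb_zero, qf]
  | succ i ih =>
    intro d
    induction d with
    | zero =>
      have := ih 0
      simp only [add_zero, gb, gb_lt q i (i + 1) (by omega), qf, Finset.prod_range_succ,
        Finset.prod_range_zero] at this ⊢
      linear_combination (q ^ (i + 1) - 1) * this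
    | succ d ih' =>
      have := ih (d + 1)
      rw [show i + 1 + (d + 1) = (i + (d + 1)) + 1 by ring, gb]
      rw [show i + 1 + d = i + (d + 1) by ring] at ih'
      simp only [qf, Finset.prod_range_succ _ (i + (d + 1)), Finset.prod_range_succ _ i,
        Finset.prod_range_succ _ d] at this ih' ⊢
      linear_combination (q ^ (i + 1) - 1) * this + q ^ (i + 1) * (q ^ (d + 1) - 1) * ih'

theorem pow_eq_gb (q x : ℂ) (j : ℕ) : ∀ s, j < s →
    x ^ j = ∑ i ∈ Finset.range s, gb q j i * ∏ r ∈ Finset.range i, (x - q ^ r) := by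
  induction j with
  | zero =>
    intro s hs
    obtain ⟨s, rfl⟩ : ∃ m, s = m + 1 := ⟨s - 1, by omega⟩
    simp [Finset.sum_range_succ', gb]
  | succ j ih =>
    intro s hs
    obtain ⟨s, rfl⟩ : ∃ m, s = m + 1 := ⟨s - 1, by omega⟩
    have h1 := ih s (by omega)
    have h2 : ∑ i ∈ Finset.range (s + 1), q ^ i * gb q j i * ∏ r ∈ Finset.range i, (x - q ^ r) =
        ∑ i ∈ Finset.range s, q ^ i * gb q j i * ∏ r ∈ Finset.range i, (x - q ^ r) := by
      rw [Finset.sum_range_succ, gb_lt q j s (by omega)]; simp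
    rw [Finset.sum_range_succ'] at h2 ⊢
    simp only [gb, gb_zero, add_mul, Finset.sum_add_distrib, pow_zero, one_mul] at h2 ⊢
    rw [add_assoc, h2, pow_succ, h1, Finset.sum_mul, ← Finset.sum_add_distrib]
    refine Finset.sum_congr rfl fun i _ => ?_
    rw [Finset.prod_range_succ]
    ring

theorem prod_pow_sub (q : ℂ) (i : ℕ) : ∀ d, (∏ r ∈ Finset.range i, (q ^ (i + d) - q ^ r)) * qf q d =
    (∏ r ∈ Finset.range i, q ^ r) * qf q (i + d) := by
  induction i with
  | zero => simp
  | succ i ih =>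
    intro d
    have := ih (d + 1)
    rw [show i + 1 + d = i + (d + 1) by ring]
    simp only [qf, Finset.prod_range_succ _ i, Finset.prod_range_succ _ d] at this ⊢
    linear_combination q ^ i * this

theorem qf_ne {s : ℕ} {ζ : ℂ} (hζ : IsPrimitiveRoot ζ s) {n : ℕ} (hn : n < s) : qf ζ n ≠ 0 := by
  refine Finset.prod_ne_zero_iff.2 fun r hr => sub_ne_zero.2 ?_
  exact hζ.pow_ne_one_of_pos_of_lt (by omega) (by have := Finset.mem_range.1 hr; omega)

theorem vm_eq {s : ℕ} {ζ : ℂ} (hζ : IsPrimitiveRoot ζ s) :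
    vm ζ s = diagonal (fun j : Fin s => qf ζ j) * LT s (PowerSeries.mk fun d => (qf ζ d)⁻¹) *
      diagonal (fun i : Fin s => (∏ r ∈ Finset.range i, ζ ^ r) / qf ζ i) *
      (LT s (PowerSeries.mk fun d => (qf ζ d)⁻¹)).submatrix Fin.revPerm Fin.revPerm *
      diagonal (fun j : Fin s => qf ζ j) := by
  ext j k
  rw [mul_diagonal, Matrix.mul_apply, Finset.sum_mul, vm, of_apply, mul_comm j.val, pow_mul,
    pow_eq_gb ζ _ j s j.2, ← Fin.sum_univ_eq_sum_range
      fun i => gb ζ j i * ∏ r ∈ Finset.range i, (ζ ^ k.val - ζ ^ r)]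
  refine Finset.sum_congr rfl fun i _ => ?_
  rw [mul_diagonal, diagonal_mul, submatrix_apply, LT_apply, LT_apply]
  simp only [Fin.revPerm_apply, Fin.val_rev, PowerSeries.coeff_mk]
  have hi := i.2
  have hj := j.2
  have hk := k.2
  by_cases h1 : i.val ≤ j.val
  · by_cases h2 : i.val ≤ k.val
    · rw [if_pos h1, if_pos (by omega), show s - (i + 1) - (s - (k + 1)) = k - i by omega]
      have e1 := gb_mul ζ i (j - i)
      have e2 := prod_pow_sub ζ i (k - i)
      rw [Nat.add_sub_cancel' h1] at e1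
      rw [Nat.add_sub_cancel' h2] at e2
      have n1 := qf_ne hζ hi
      have n2 := qf_ne hζ (n := j - i) (by omega)
      have n3 := qf_ne hζ (n := k - i) (by omega)
      rw [← e1]
      field_simp
      linear_combination (gb ζ j i) * e2
    · rw [if_neg (c := s - (k + 1) ≤ s - (i + 1)) (by omega),
        Finset.prod_eq_zero (i := k.val) (by simp; omega) (sub_self _)]
      simp
  · rw [if_neg h1, gb_lt ζ j i (by omega)]
    simp

theorem lay_vm (k s : ℕ) (hs : s ≤ 2 ^ k) {ζ : ℂ} (hζ : IsPrimitiveRoot ζ s) :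
    Lay (4000003 * (k + 1) ^ 2) (vm ζ s) := by
  have h := lay_LT k s hs (PowerSeries.mk fun d => (qf ζ d)⁻¹) (by simp [qf])
  rw [vm_eq hζ]
  refine ((((((lay_diagonal _).mul h).mul (lay_diagonal _)).mul (h.submatrix _)).mul
    (lay_diagonal _))).le ?_
  nlinarith [Nat.zero_le k]

end Crest.Agent.R324
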