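import Crest.Agent.R324.Lay

/-!
Row 324: the radix-two transform, circulants and Toeplitz shears.
-/

set_option autoImplicit false

open Matrix

namespace Crest.Agent.R324

/-- the Fourier matrix of a root of unity -/
def vm (ζ : ℂ) (s : ℕ) : Matrix (Fin s) (Fin s) ℂ := Matrix.of fun j k => ζ ^ (j.val * k.val)

theorem lay_fft (k : ℕ) : ∀ s, s = 2 ^ k → ∀ ζ : ℂ, IsPrimitiveRoot ζ s → Lay (3 * k) (vm ζ s) := by
  induction k with
  | zero =>
    rintro _ rfl ζ _
    refine Lay.zero.congr rfl ?_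
    ext p q
    rw [Subsingleton.elim (α := Fin 1) p q]
    simp [vm]
  | succ k ih =>
    intro s hs ζ hζ
    obtain ⟨m, hm⟩ : ∃ m, m = 2 ^ k := ⟨_, rfl⟩
    obtain rfl : s = m + m := by rw [hs, hm]; ring
    have hpos : 0 < m + m := by rw [hs]; positivity
    have h2 : IsPrimitiveRoot (ζ ^ 2) m := hζ.pow hpos (by ring)
    have hneg : ζ ^ m = -1 := (hζ.pow hpos (b := 2) (by ring)).eq_neg_one_of_two_right
    let f : Fin m ⊕ Fin m → Fin (m + m) :=
      Sum.elim (fun j => ⟨2 * j, by omega⟩) fun j => ⟨2 * j + 1, by omega⟩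
    have hf : Function.Bijective f := by
      refine (Fintype.bijective_iff_injective_and_card _).2 ⟨?_, by simp⟩
      rintro (a | a) (b | b) h <;> simp only [f, Sum.elim_inl, Sum.elim_inr, Fin.mk.injEq] at h
      · exact congrArg _ (Fin.ext (by omega))
      · omega
      · omega
      · exact congrArg _ (Fin.ext (by omega))
    have key : (vm ζ (m + m)).submatrix finSumFinEquiv (Equiv.ofBijective f hf) =
        bl 1 (fun j : Fin m => ζ ^ j.val) 1 (-fun j : Fin m => ζ ^ j.val) *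
          fromBlocks (vm (ζ ^ 2) m) 0 0 (vm (ζ ^ 2) m) := by
      rw [bl, fromBlocks_multiply]
      have e1 : ∀ b : ℕ, ζ ^ (m * b * 2) = 1 := fun b => by
        rw [mul_assoc, pow_mul ζ m, hneg, mul_comm, pow_mul]; simp
      ext (p | p) (q | q) <;> simp [vm, f, ← pow_mul, mul_add, pow_add, hneg] <;> ring_nf <;>
        simp [e1]
    refine ((((lay_butterfly _).mul ((ih m hm _ h2).blocks (ih m hm _ h2))).congr rfl
      key.symm).submatrix₂ finSumFinEquiv.symm (Equiv.ofBijective f hf).symm).congr (by ring) ?_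
    rw [submatrix_submatrix, Equiv.self_comp_symm, Equiv.self_comp_symm, submatrix_id_id]

theorem vm_mul {s : ℕ} {ζ : ℂ} (hζ : IsPrimitiveRoot ζ s) :
    diagonal (fun _ => (s : ℂ)⁻¹) * vm ζ⁻¹ s * vm ζ s = 1 := by
  ext x z
  have hs : 0 < s := x.pos
  have h0 : ζ ≠ 0 := hζ.ne_zero hs.ne'
  rw [Matrix.mul_assoc, diagonal_mul, Matrix.mul_apply]
  have e : ∀ y : Fin s, vm ζ⁻¹ s x y * vm ζ s y z = (ζ ^ z.val / ζ ^ x.val) ^ y.val := fun y => by
    simp only [vm, of_apply, div_pow, inv_pow, ← pow_mul, mul_comm z.val]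
    field_simp
  rw [Finset.sum_congr rfl fun y _ => e y,
    Fin.sum_univ_eq_sum_range fun y => (ζ ^ z.val / ζ ^ x.val) ^ y]
  by_cases h : x = z
  · subst h
    have : (s : ℂ) ≠ 0 := by exact_mod_cast hs.ne'
    simp [div_self (pow_ne_zero _ h0), this]
  · have h1 : ζ ^ z.val / ζ ^ x.val ≠ 1 := fun h1 =>
      h (Fin.ext (hζ.pow_inj z.2 x.2 ((div_eq_one_iff_eq (pow_ne_zero _ h0)).1 h1)).symm)
    rw [geom_sum_eq h1, div_pow, ← pow_mul, ← pow_mul, mul_comm z.val, mul_comm x.val, pow_mul,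
      pow_mul, hζ.pow_eq_one]
    simp [one_apply, h]

/-- the Fourier matrix on `ZMod s` -/
def dm (ζ : ℂ) (s : ℕ) : Matrix (ZMod s) (ZMod s) ℂ := Matrix.of fun j k => ζ ^ (j.val * k.val)

theorem Lay.dm {K s : ℕ} [NeZero s] {ζ : ℂ} (h : Lay K (vm ζ s)) : Lay K (dm ζ s) := by
  obtain ⟨m, rfl⟩ := Nat.exists_eq_succ_of_ne_zero (NeZero.ne s)
  exact h

theorem dm_mul {s : ℕ} [NeZero s] {ζ : ℂ} (hζ : IsPrimitiveRoot ζ s) :
    diagonal (fun _ => (s : ℂ)⁻¹) * dm ζ⁻¹ s * dm ζ s = 1 := by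
  obtain ⟨m, rfl⟩ := Nat.exists_eq_succ_of_ne_zero (NeZero.ne s)
  exact vm_mul hζ

theorem dm_add {s : ℕ} [NeZero s] {ζ : ℂ} (hζ : ζ ^ s = 1) (x y z : ZMod s) :
    dm ζ s x (y + z) = dm ζ s x y * dm ζ s x z := by
  simp only [dm, of_apply]
  rw [ZMod.val_add, mul_comm, pow_mul, ← pow_eq_pow_mod _ hζ, ← pow_mul, ← pow_add]
  congr 1; ring

theorem circ_eq {G : Type} [Fintype G] [DecidableEq G] [AddCommGroup G] {F F' : Matrix G G ℂ}
    (hF : ∀ x y z, F x (y + z) = F x y * F x z) (e : F' * F = 1) (r : G → ℂ) :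
    circulant r = F' * diagonal (F *ᵥ r) * F := by
  have : F * circulant r = diagonal (F *ᵥ r) * F := by
    ext x z
    rw [diagonal_mul, Matrix.mul_apply, mulVec, dotProduct, Finset.sum_mul,
      ← Equiv.sum_comp (Equiv.addRight z)]
    refine Finset.sum_congr rfl fun y _ => ?_
    simp [hF, circulant_apply]
    ring
  rw [Matrix.mul_assoc, ← this, ← Matrix.mul_assoc, e, Matrix.one_mul]

theorem sh_circ (k s : ℕ) [NeZero s] (hs : s = 2 ^ k) (r : ZMod s → ℂ) :
    Sh (12 * k + 10) 0 (circulant r) := by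
  have hζ := Complex.isPrimitiveRoot_exp s (NeZero.ne s)
  have h1 := (lay_fft k s hs _ hζ).dm
  have h2 := (lay_diagonal fun _ => (s : ℂ)⁻¹).mul (lay_fft k s hs _ hζ.inv).dm
  rw [circ_eq (dm_add hζ.pow_eq_one) (dm_mul hζ) r]
  exact (((sh_diag _).left h2 h1 (dm_mul hζ)).right h1 h2 (dm_mul hζ)).le (by omega) le_rfl

/-- Toeplitz matrix with prescribed positions -/
def toep {α β : Type} (c : ℤ → ℂ) (pr : β → ℕ) (pc : α → ℕ) : Matrix β α ℂ :=
  Matrix.of fun p q => c ((pr p : ℤ) - pc q)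

theorem toep_circ {α β : Type} (c : ℤ → ℂ) (pr : β → ℕ) (pc : α → ℕ) (s : ℕ) [NeZero s] (w : ℤ)
    (h : ∀ p q, w ≤ (pr p : ℤ) - pc q ∧ (pr p : ℤ) - pc q < w + s) :
    ∃ r : ZMod s → ℂ, toep c pr pc =
      (circulant r).submatrix (fun p => (pr p : ZMod s)) fun q => (pc q : ZMod s) := by
  refine ⟨fun z => c (((z - (w : ZMod s)).val : ℤ) + w), ?_⟩
  ext p q
  simp only [toep, of_apply, submatrix_apply, circulant_apply]
  congr 1
  have : (pr p : ZMod s) - (pc q : ZMod s) - (w : ZMod s) =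
      (((pr p : ℤ) - pc q - w : ℤ) : ZMod s) := by push_cast; ring
  have h1 := h p q
  rw [this, ZMod.val_intCast, Int.emod_eq_of_lt (by omega) (by omega)]
  ring

theorem cast_inj_window {α : Type} {p : α → ℕ} (hp : Function.Injective p) {σ i s : ℕ}
    (h : ∀ a, p a / σ = i) (hσ : 0 < σ) (hs : σ ≤ s) :
    Function.Injective fun a => (p a : ZMod s) := fun a b hab => by
  apply hp
  have h1 := (ZMod.natCast_eq_natCast_iff _ _ _).1 hab
  have h2 := Nat.div_add_mod (p a) σ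
  have h3 := Nat.div_add_mod (p b) σ
  have h4 := Nat.mod_lt (p a) hσ
  have h5 := Nat.mod_lt (p b) hσ
  rw [h] at h2 h3
  exact h1.eq_of_abs_lt (by rw [abs_lt]; omega)

section

variable {α β γ : Type} [Fintype α] [DecidableEq α] [Fintype β] [DecidableEq β] [Fintype γ]
  [DecidableEq γ]

theorem sh_toep_small (c : ℤ → ℂ) {pr : β → ℕ} {pc : α → ℕ} (hr : Function.Injective pr)
    (hc : Function.Injective pc) (k i j : ℕ) (h1 : ∀ p, pr p / 2 ^ k = i)
    (h2 : ∀ q, pc q / 2 ^ k = j) : Sh (48 * k + 148) (6 * 2 ^ k) (toep c pr pc) := by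
  obtain ⟨σ, hσ⟩ : ∃ σ, σ = 2 ^ k := ⟨_, rfl⟩
  rw [← hσ] at h1 h2 ⊢
  have hpos : 0 < σ := by rw [hσ]; positivity
  have : NeZero (2 * σ) := ⟨by omega⟩
  obtain ⟨r, e⟩ := toep_circ c pr pc (2 * σ) ((σ * i : ℕ) - (σ * j : ℕ) - σ) fun p q => by
    have a1 := Nat.div_add_mod (pr p) σ
    have a2 := Nat.div_add_mod (pc q) σ
    have a3 := Nat.mod_lt (pr p) hpos
    have a4 := Nat.mod_lt (pc q) hpos
    rw [h1] at a1
    rw [h2] at a2
    omega
  have i1 := cast_inj_window (s := 2 * σ) hr h1 hpos (by omega)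
  have i2 := cast_inj_window (s := 2 * σ) hc h2 hpos (by omega)
  have c1 := Fintype.card_le_of_injective _ i1
  have c2 := Fintype.card_le_of_injective _ i2
  rw [ZMod.card] at c1 c2
  rw [e, ← Et_mul_E]
  refine ((((sh_Et i1).le le_rfl (Nat.zero_le (6 * σ))).mul
    ((sh_circ (k + 1) (2 * σ) (by rw [hσ]; ring) r).le le_rfl (Nat.zero_le _)) ?_).mul
    ((sh_E i2).le le_rfl (Nat.zero_le _)) ?_).le (by omega) le_rfl <;> rw [ZMod.card] <;> omega

omit [Fintype α] in
theorem sum_E_Et {τ : Type} [Fintype τ] [DecidableEq τ] [Fintype α] (b : α → τ) :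
    ∑ i : τ, E (Subtype.val : {a // b a = i} → α) * (E (Subtype.val : {a // b a = i} → α))ᵀ =
      1 := by
  ext p q
  rw [Matrix.sum_apply, Finset.sum_eq_single (b p)]
  · rw [Matrix.mul_apply, Finset.sum_eq_single ⟨p, rfl⟩]
    · simp [E, one_apply, eq_comm]
    · intro a _ ha
      have : p ≠ a.1 := fun h => ha (Subtype.ext h.symm)
      simp [E, this]
    · simp
  · intro i _ hi
    rw [Matrix.mul_apply]
    refine Finset.sum_eq_zero fun a _ => ?_
    have : p ≠ a.1 := fun h => hi (by rw [h, a.2])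
    simp [E, this]
  · simp

theorem Sh.mul_blocks {τ : Type} [Fintype τ] [DecidableEq τ] {K ρ σ : ℕ} {X : Matrix γ α ℂ}
    {Y : Matrix β γ ℂ} (ba : α → τ) (bb : β → τ) (bc : γ → τ)
    (hY : ∀ i j, Sh K ρ (Y.submatrix (Subtype.val : {p // bb p = i} → β)
      (Subtype.val : {p // bc p = j} → γ)))
    (hX : ∀ i j, Sh K ρ (X.submatrix (Subtype.val : {p // bc p = i} → γ)
      (Subtype.val : {p // ba p = j} → α)))
    (ca : ∀ i, Fintype.card {p // ba p = i} ≤ σ) (cb : ∀ i, Fintype.card {p // bb p = i} ≤ σ)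
    (cc : ∀ i, Fintype.card {p // bc p = i} ≤ σ) (h : 3 * σ ≤ ρ) :
    Sh (Fintype.card τ ^ 3 * (4 * K + 4)) ρ (Y * X) := by
  refine ((Sh.sum Finset.univ fun i : τ => Sh.sum Finset.univ fun j : τ =>
    Sh.sum Finset.univ fun l : τ => ((hY i j).mul (hX j l) (by
      have := ca l; have := cb i; have := cc j; omega)).emb Subtype.val_injective
        Subtype.val_injective).congr ?_).le (le_of_eq (by simp; ring)) le_rfl
  have : Y * X = (1 : Matrix β β ℂ) * (Y * ((1 : Matrix γ γ ℂ) * (X * (1 : Matrix α α ℂ)))) := by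
    simp
  rw [this, ← sum_E_Et ba, ← sum_E_Et bb, ← sum_E_Et bc, Matrix.sum_mul]
  refine Finset.sum_congr rfl fun i _ => ?_
  rw [Matrix.sum_mul, Matrix.mul_sum, Matrix.mul_sum]
  simp only [Matrix.mul_sum, ← Et_mul_E, Matrix.mul_assoc]

theorem sh_toep_mul (c c' : ℤ → ℂ) {pr : β → ℕ} {pm : γ → ℕ} {pc : α → ℕ}
    (hr : Function.Injective pr) (hm : Function.Injective pm) (hc : Function.Injective pc)
    (k s : ℕ) (hs : s ≤ 2 ^ k) (h1 : ∀ p, pr p < s) (h2 : ∀ p, pm p < s) (h3 : ∀ p, pc p < s) :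
    Sh (2000000 * (k + 1)) s (toep c pr pm * toep c' pm pc) := by
  have hcard : ∀ {δ : Type} [Fintype δ] {p : δ → ℕ}, Function.Injective p → (∀ a, p a < s) →
      Fintype.card δ ≤ s := fun {δ} _ {p} hp h => by
    simpa using Fintype.card_le_of_injective (fun a => (⟨p a, h a⟩ : Fin s))
      fun a b e => hp (congrArg Fin.val e)
  rcases lt_or_ge s 6 with h6 | h6
  · refine (sh_any _).le ?_ (Nat.zero_le _)
    have a1 := hcard hr h1
    have a2 := hcard hc h3
    calc _ ≤ 6 * (6 * 8) := by gcongr <;> omega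
      _ ≤ _ := by omega
  obtain ⟨j, hj⟩ : ∃ j, j = Nat.log 2 (s / 6) := ⟨_, rfl⟩
  have b1 : 2 ^ j ≤ s / 6 := hj ▸ Nat.pow_log_le_self 2 (by omega)
  have b2 : s / 6 < 2 ^ (j + 1) := hj ▸ Nat.lt_pow_succ_log_self (by norm_num) _
  have b3 : j ≤ k := (Nat.pow_le_pow_iff_right (a := 2) (by norm_num)).1 (by omega)
  have hpos : 0 < 2 ^ j := by positivity
  have b4 : ∀ x < s, x / 2 ^ j < 12 := fun x hx => by
    rw [Nat.div_lt_iff_lt_mul hpos]; rw [pow_succ] at b2; omega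
  have hfib : ∀ {δ : Type} [Fintype δ] {p : δ → ℕ} (_ : Function.Injective p) (h : ∀ a, p a < s)
      (i : Fin 12), Fintype.card {a // (⟨p a / 2 ^ j, b4 _ (h a)⟩ : Fin 12) = i} ≤ 2 ^ j :=
    fun {δ} _ {p} hp h i => by
      have : NeZero (2 ^ j) := ⟨hpos.ne'⟩
      simpa using Fintype.card_le_of_injective _ (cast_inj_window (s := 2 ^ j)
        (hp.comp (Subtype.val_injective
          (p := fun a => (⟨p a / 2 ^ j, b4 _ (h a)⟩ : Fin 12) = i)))
        (fun a => congrArg Fin.val a.2) hpos le_rfl)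
  refine (Sh.mul_blocks (K := 48 * j + 148) (σ := 2 ^ j)
    (fun a => (⟨pc a / 2 ^ j, b4 _ (h3 a)⟩ : Fin 12)) (fun a => ⟨pr a / 2 ^ j, b4 _ (h1 a)⟩)
    (fun a => ⟨pm a / 2 ^ j, b4 _ (h2 a)⟩) (fun i l => ?_) (fun i l => ?_) (hfib hc h3) (hfib hr h1)
    (hfib hm h2) (by omega)).le (by simp; omega) le_rfl
  · exact (sh_toep_small c (hr.comp Subtype.val_injective) (hm.comp Subtype.val_injective) j i l
      (fun a => congrArg Fin.val a.2) (fun a => congrArg Fin.val a.2)).le le_rfl (by omega)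
  · exact (sh_toep_small c' (hm.comp Subtype.val_injective) (hc.comp Subtype.val_injective) j i l
      (fun a => congrArg Fin.val a.2) (fun a => congrArg Fin.val a.2)).le le_rfl (by omega)

end

end Crest.Agent.R324
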