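import Crest.Agent.R324.Tens

/-!
Row 324: matrices that are products of few in-place layers; shears with borrowed work space.
-/

set_option autoImplicit false

open Set Matrix

namespace Crest.Agent.R324

/-- products of `K` layers -/
inductive Lay {ι : Type} [Fintype ι] [DecidableEq ι] : ℕ → Matrix ι ι ℂ → Prop
  | zero : Lay 0 1
  | succ {K : ℕ} {g : Matrix ι ι ℂ} (σ : ι → ι) (d : ι → ℂ) (μ : ι → ι)
      (hμ : Function.Involutive μ) : Lay K g → Lay (K + 1) (mono σ d * gm μ * g)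

section Basic

variable {ι : Type} [Fintype ι] [DecidableEq ι]

theorem Lay.inv_zero {g : Matrix ι ι ℂ} (h : Lay 0 g) : g = 1 := by cases h; rfl

theorem Lay.inv_succ {K : ℕ} {g : Matrix ι ι ℂ} (h : Lay (K + 1) g) :
    ∃ (σ : ι → ι) (d : ι → ℂ) (μ : ι → ι) (g' : Matrix ι ι ℂ), Function.Involutive μ ∧ Lay K g' ∧
      g = mono σ d * gm μ * g' := by
  cases h with
  | succ σ d μ hμ h => exact ⟨σ, d, μ, _, hμ, h, rfl⟩

theorem Lay.congr {K K' : ℕ} {g g' : Matrix ι ι ℂ} (h : Lay K g) (e : K = K') (e' : g = g') :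
    Lay K' g' := e ▸ e' ▸ h

theorem Lay.mul {K K' : ℕ} {g g' : Matrix ι ι ℂ} (h : Lay K g) (h' : Lay K' g') :
    Lay (K + K') (g * g') := by
  induction h with
  | zero => simpa using h'
  | succ σ d μ hμ _ ih =>
    exact (ih.succ σ d μ hμ).congr (by omega) (by simp only [Matrix.mul_assoc])

theorem Lay.le {K K' : ℕ} {g : Matrix ι ι ℂ} (h : Lay K g) (hK : K ≤ K') : Lay K' g := by
  induction hK with
  | refl => exact h
  | step _ ih => exact (ih.succ id 1 id fun _ => rfl).congr rfl (by simp [mono_id, gm_id])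

theorem lay_mono_gm (σ : ι → ι) (d : ι → ℂ) (μ : ι → ι) (hμ : Function.Involutive μ) :
    Lay 1 (mono σ d * gm μ) := (Lay.zero.succ σ d μ hμ).congr rfl (by simp)

theorem lay_mono (σ : ι → ι) (d : ι → ℂ) : Lay 1 (mono σ d) :=
  (lay_mono_gm σ d id fun _ => rfl).congr rfl (by simp [gm_id])

omit [Fintype ι] in
theorem mono_id_eq (d : ι → ℂ) : mono id d = diagonal d := by
  ext p q; simp [mono, diagonal_apply, eq_comm]

theorem lay_diagonal (d : ι → ℂ) : Lay 1 (diagonal d) := mono_id_eq d ▸ lay_mono id d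

theorem Lay.submatrix {ι' : Type} [Fintype ι'] [DecidableEq ι'] {K : ℕ} {g : Matrix ι ι ℂ}
    (h : Lay K g) (e : ι' ≃ ι) : Lay K (g.submatrix e e) := by
  induction h with
  | zero => simpa using Lay.zero
  | succ σ d μ hμ _ ih =>
    refine (ih.succ (e.symm ∘ σ ∘ e) (d ∘ e) (e.symm ∘ μ ∘ e) fun x => by simp [hμ _]).congr rfl ?_
    rw [← submatrix_mul_equiv _ _ _ e, ← submatrix_mul_equiv _ _ _ e]
    congr 2
    · ext p q; simp [mono, Equiv.eq_symm_apply]
    · ext p q; simp [gm, Equiv.eq_symm_apply]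

theorem Lay.submatrix₂ {ι' : Type} [Fintype ι'] [DecidableEq ι'] {K : ℕ} {g : Matrix ι ι ℂ}
    (h : Lay K g) (e e' : ι' ≃ ι) : Lay (K + 1) (g.submatrix e e') := by
  refine ((h.submatrix e).mul (lay_mono (e'.symm ∘ e) 1)).congr rfl ?_
  ext p q
  rw [Matrix.mul_apply, Finset.sum_eq_single (e.symm (e' q))]
  · simp [mono]
  · intro c _ hc
    have : q ≠ e'.symm (e c) := fun h => hc (by simp [h])
    simp [mono, this]
  · simp

theorem Lay.blocks {ι' : Type} [Fintype ι'] [DecidableEq ι'] {K : ℕ} {g : Matrix ι ι ℂ}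
    {g' : Matrix ι' ι' ℂ} (h : Lay K g) (h' : Lay K g') : Lay K (fromBlocks g 0 0 g') := by
  induction h generalizing g' with
  | zero => rw [h'.inv_zero, fromBlocks_one]; exact Lay.zero
  | succ σ d μ hμ _ ih =>
    obtain ⟨σ', d', μ', g'', hμ', h'', rfl⟩ := h'.inv_succ
    refine ((ih h'').succ (Sum.map σ σ') (Sum.elim d d') (Sum.map μ μ')
      (by rintro (p | p) <;> simp [hμ _, hμ' _])).congr rfl ?_
    have e1 : mono (Sum.map σ σ') (Sum.elim d d') = fromBlocks (mono σ d) 0 0 (mono σ' d') := by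
      ext (p | p) (q | q) <;> simp [mono]
    have e2 : gm (Sum.map μ μ') = fromBlocks (gm μ) 0 0 (gm μ') := by
      ext (p | p) (q | q) <;> simp [gm]
    rw [e1, e2, fromBlocks_multiply, fromBlocks_multiply]
    simp

end Basic

theorem cost_tens {M : Type} [AddCommGroup M] [Module ℂ M] {κ : Type} [Fintype κ] [DecidableEq κ]
    {ι : κ → Type} [∀ k, Fintype (ι k)] [∀ k, DecidableEq (ι k)] {t : ℝ} (ht : 0 ≤ t)
    (hg : ∀ j ≤ Fintype.card κ, GoodAt M j t) (K : ℕ) (g : ∀ k, Matrix (ι k) (ι k) ℂ)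
    (h : ∀ k, Lay K (g k)) : Cost M (tens g) (K * (1 + t) * Fintype.card (∀ k, ι k)) := by
  induction K generalizing g with
  | zero =>
    rw [funext fun k => (h k).inv_zero, tens_one]; simpa using cost_one
  | succ K ih =>
    choose σ d μ g' hμ hg' e using fun k => (h k).inv_succ
    rw [funext e, tens_mul, tens_mul, tens_mono]
    refine (((cost_mono _ _).mul (cost_layer μ hμ ht hg)).mul (ih g' hg')).le (le_of_eq ?_)
    push_cast; ring

section Ext

variable {ι α β γ : Type} [Fintype ι] [DecidableEq ι] [Fintype α] [DecidableEq α] [Fintype β]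
  [DecidableEq β] [Fintype γ] [DecidableEq γ]

/-- inclusion matrix -/
def E {ι α : Type} [DecidableEq ι] (f : α → ι) : Matrix ι α ℂ :=
  Matrix.of fun p a => if p = f a then 1 else 0

omit [Fintype α] in
theorem Et_E {f : α → ι} (hf : Function.Injective f) : (E f)ᵀ * E f = 1 := by
  ext a b
  simp [E, Matrix.mul_apply, one_apply, hf.eq_iff, eq_comm]

omit [Fintype α] [DecidableEq α] [Fintype β] [DecidableEq β] in
theorem Et_E_disj {f : α → ι} {g : β → ι} (h : ∀ a b, f a ≠ g b) : (E f)ᵀ * E g = 0 := by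
  ext a b
  simp [E, Matrix.mul_apply, (h a b).symm]

omit [Fintype ι] [Fintype β] [DecidableEq β] in
theorem E_comp (f : α → ι) (g : β → α) : E (f ∘ g) = E f * E g := by
  ext p b
  simp [E, Matrix.mul_apply]

omit [Fintype ι] in
theorem E_id : E (id : ι → ι) = 1 := by ext p q; simp [E, one_apply]

omit [Fintype α] [DecidableEq α] [Fintype β] [DecidableEq β] in
theorem Et_mul_E {ι' : Type} [Fintype ι'] [DecidableEq ι'] (f : α → ι) (g : β → ι')
    (X : Matrix ι' ι ℂ) : (E g)ᵀ * X * E f = X.submatrix g f := by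
  ext p q
  simp [E, Matrix.mul_apply]

/-- extension by the identity -/
def ext (f : α → ι) (g : Matrix α α ℂ) : Matrix ι ι ℂ := 1 + E f * (g - 1) * (E f)ᵀ

theorem ext_mul_E {f : α → ι} (hf : Function.Injective f) (g : Matrix α α ℂ) :
    ext f g * E f = E f * g := by
  rw [ext, Matrix.add_mul, Matrix.mul_assoc, Et_E hf, Matrix.mul_sub]; simp

theorem Et_mul_ext {f : α → ι} (hf : Function.Injective f) (g : Matrix α α ℂ) :
    (E f)ᵀ * ext f g = g * (E f)ᵀ := by
  rw [ext, Matrix.mul_add, ← Matrix.mul_assoc, ← Matrix.mul_assoc, Et_E hf, Matrix.one_mul,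
    Matrix.sub_mul]; simp

omit [Fintype β] [DecidableEq β] in
theorem ext_mul_E_disj {f : α → ι} {f' : β → ι} (h : ∀ a b, f a ≠ f' b) (g : Matrix α α ℂ) :
    ext f g * E f' = E f' := by
  rw [ext, Matrix.add_mul, Matrix.mul_assoc, Et_E_disj h]; simp

omit [Fintype β] [DecidableEq β] in
theorem Et_mul_ext_disj {f : α → ι} {f' : β → ι} (h : ∀ b a, f' b ≠ f a) (g : Matrix α α ℂ) :
    (E f')ᵀ * ext f g = (E f')ᵀ := by
  rw [ext, Matrix.mul_add, ← Matrix.mul_assoc, ← Matrix.mul_assoc, Et_E_disj h]; simp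

omit [Fintype ι] in
theorem ext_one (f : α → ι) : ext f 1 = 1 := by simp [ext]

theorem ext_mul {f : α → ι} (hf : Function.Injective f) (g g' : Matrix α α ℂ) :
    ext f (g * g') = ext f g * ext f g' := by
  conv_rhs => rw [ext.eq_1 f g', Matrix.mul_add, ← Matrix.mul_assoc, ← Matrix.mul_assoc,
    ext_mul_E hf, Matrix.mul_one, ext]
  simp only [ext, Matrix.mul_sub, Matrix.sub_mul, Matrix.mul_assoc, Matrix.mul_one]
  abel

omit [Fintype ι] in
theorem ext_mono {f : α → ι} (hf : Function.Injective f) (σ : α → α) (d : α → ℂ) :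
    ext f (mono σ d) = mono (Function.extend f (f ∘ σ) id) (Function.extend f d 1) := by
  ext p q
  by_cases hp : ∃ a, f a = p
  · obtain ⟨a, rfl⟩ := hp
    by_cases hq : ∃ b, f b = q
    · obtain ⟨b, rfl⟩ := hq
      simp [ext, E, mono, Matrix.mul_apply, hf.extend_apply, hf.eq_iff, one_apply]
    · have : ∀ b, q ≠ f b := fun b h => hq ⟨b, h.symm⟩
      simp [ext, E, mono, Matrix.mul_apply, hf.extend_apply, this, one_apply, (this _).symm]
  · have : ∀ a, p ≠ f a := fun a h => hp ⟨a, h.symm⟩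
    simp [ext, E, mono, Matrix.mul_apply, Function.extend_apply' _ _ _ hp, this, one_apply, eq_comm]

omit [Fintype ι] in
theorem gm_eq (μ : ι → ι) : gm μ = al • (1 : Matrix ι ι ℂ) + be • mono μ 1 := by
  ext p q; simp [gm, mono, one_apply, eq_comm]

omit [Fintype ι] in
theorem ext_gm {f : α → ι} (hf : Function.Injective f) (μ : α → α) :
    ext f (gm μ) = gm (Function.extend f (f ∘ μ) id) := by
  have h1 : Function.extend f (1 : α → ℂ) 1 = 1 := by
    ext p; simp [Function.extend_def]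
  have h2 : al = 1 - be := by rw [← al_add_be]; ring
  rw [gm_eq, gm_eq, ← h1, ← ext_mono hf, ext, ext, h2]
  have : (1 - be) • (1 : Matrix α α ℂ) + be • mono μ 1 - 1 = be • (mono μ 1 - 1) := by module
  rw [this, Matrix.mul_smul, Matrix.smul_mul]
  module

theorem Lay.ext {K : ℕ} {g : Matrix α α ℂ} (h : Lay K g) {f : α → ι}
    (hf : Function.Injective f) : Lay K (ext f g) := by
  induction h with
  | zero => rw [ext_one]; exact Lay.zero
  | succ σ d μ hμ _ ih =>
    rw [ext_mul hf, ext_mul hf, ext_mono hf, ext_gm hf]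
    refine ih.succ _ _ _ fun p => ?_
    by_cases hp : ∃ a, f a = p
    · obtain ⟨a, rfl⟩ := hp
      simp [hf.extend_apply, hμ a]
    · simp [Function.extend_apply' _ _ _ hp]

/-- the shear by `X` is a product of `K` layers as soon as `ρ` coordinates are present -/
def Sh (K ρ : ℕ) (X : Matrix β α ℂ) : Prop :=
  ∀ (ι : Type) [Fintype ι] [DecidableEq ι] (f : α → ι) (g : β → ι), Function.Injective f →
    Function.Injective g → (∀ a b, f a ≠ g b) → ρ ≤ Fintype.card ι → Lay K (1 + E g * X * (E f)ᵀ)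

omit [DecidableEq α] [DecidableEq β] in
theorem Sh.le {K K' ρ ρ' : ℕ} {X : Matrix β α ℂ} (h : Sh K ρ X) (hK : K ≤ K') (hρ : ρ ≤ ρ') :
    Sh K' ρ' X := fun ι _ _ f g hf hg hd hc => (h ι f g hf hg hd (hρ.trans hc)).le hK

omit [DecidableEq α] [DecidableEq β] in
theorem Sh.congr {K ρ : ℕ} {X X' : Matrix β α ℂ} (h : Sh K ρ X) (e : X = X') : Sh K ρ X' := e ▸ h

omit [DecidableEq α] [DecidableEq β] in
theorem sh_zero (ρ : ℕ) : Sh 0 ρ (0 : Matrix β α ℂ) := fun ι _ _ f g _ _ _ _ => by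
  simpa using Lay.zero

omit [DecidableEq α] [DecidableEq β] in
theorem Sh.add {K K' ρ : ℕ} {X X' : Matrix β α ℂ} (h : Sh K ρ X) (h' : Sh K' ρ X') :
    Sh (K + K') ρ (X + X') := fun ι _ _ f g hf hg hd hc => by
  refine ((h ι f g hf hg hd hc).mul (h' ι f g hf hg hd hc)).congr rfl ?_
  have : E g * X * (E f)ᵀ * (E g * X' * (E f)ᵀ) = 0 := by
    simp only [Matrix.mul_assoc]
    rw [← Matrix.mul_assoc (E f)ᵀ, Et_E_disj hd]; simp
  simp only [Matrix.mul_add, Matrix.add_mul, this, Matrix.mul_one, Matrix.one_mul]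
  abel

omit [DecidableEq α] [DecidableEq β] in
theorem Sh.sum {τ : Type} (s : Finset τ) {K ρ : ℕ} {X : τ → Matrix β α ℂ}
    (h : ∀ i, Sh K ρ (X i)) : Sh (s.card * K) ρ (∑ i ∈ s, X i) := by
  classical
  induction s using Finset.induction_on with
  | empty => simpa using sh_zero ρ
  | insert a s ha ih =>
    rw [Finset.sum_insert ha, Finset.card_insert_of_notMem ha]
    exact ((h a).add ih).le (le_of_eq (by ring)) le_rfl

omit [DecidableEq α] [DecidableEq β] in
theorem Sh.emb {α' β' : Type} [Fintype α'] [DecidableEq α'] [Fintype β'] [DecidableEq β']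
    {K ρ : ℕ} {X : Matrix β α ℂ} (h : Sh K ρ X) {f' : α → α'} {g' : β → β'}
    (hf' : Function.Injective f') (hg' : Function.Injective g') :
    Sh K ρ (E g' * X * (E f')ᵀ) := fun ι _ _ f g hf hg hd hc => by
  refine (h ι (f ∘ f') (g ∘ g') (hf.comp hf') (hg.comp hg') (fun a b => hd _ _) hc).congr rfl ?_
  simp only [E_comp, transpose_mul, Matrix.mul_assoc]

omit [DecidableEq α] in
theorem Sh.left {K K1 K2 ρ : ℕ} {X : Matrix β α ℂ} (h : Sh K ρ X) {G G' : Matrix β β ℂ}
    (h1 : Lay K1 G) (h2 : Lay K2 G') (e : G * G' = 1) : Sh (K1 + K + K2) ρ (G * X) :=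
  fun ι _ _ f g hf hg hd hc => by
    refine (((h1.ext hg).mul (h ι f g hf hg hd hc)).mul (h2.ext hg)).congr rfl ?_
    rw [Matrix.mul_add, Matrix.add_mul, Matrix.mul_one, ← ext_mul hg, e, ext_one,
      ← Matrix.mul_assoc, ← Matrix.mul_assoc, ext_mul_E hg, Matrix.mul_assoc _ (E f)ᵀ,
      Et_mul_ext_disj hd, Matrix.mul_assoc (E g)]

omit [DecidableEq β] in
theorem Sh.right {K K1 K2 ρ : ℕ} {X : Matrix β α ℂ} (h : Sh K ρ X) {G G' : Matrix α α ℂ}
    (h1 : Lay K1 G) (h2 : Lay K2 G') (e : G' * G = 1) : Sh (K2 + K + K1) ρ (X * G) :=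
  fun ι _ _ f g hf hg hd hc => by
    refine (((h2.ext hf).mul (h ι f g hf hg hd hc)).mul (h1.ext hf)).congr rfl ?_
    rw [Matrix.mul_add, Matrix.add_mul, Matrix.mul_one, ← ext_mul hf, e, ext_one,
      ← Matrix.mul_assoc, ← Matrix.mul_assoc, ext_mul_E_disj hd, Matrix.mul_assoc _ (E f)ᵀ,
      Et_mul_ext hf]
    simp only [Matrix.mul_assoc]

omit [DecidableEq α] in
theorem Sh.neg {K ρ : ℕ} {X : Matrix β α ℂ} (h : Sh K ρ X) : Sh (K + 2) ρ (-X) :=
  ((h.left (lay_diagonal fun _ => -1) (lay_diagonal fun _ => -1)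
    (by simp [diagonal_mul_diagonal])).congr (by ext p q; simp)).le (by omega) le_rfl

omit [DecidableEq α] in
theorem Sh.mul {K K' ρ : ℕ} {X : Matrix γ α ℂ} {Y : Matrix β γ ℂ} (h' : Sh K' ρ Y) (h : Sh K ρ X)
    (hρ : Fintype.card α + Fintype.card β + Fintype.card γ ≤ ρ) :
    Sh (2 * K + 2 * K' + 4) ρ (Y * X) := fun ι _ _ f g hf hg hd hc => by
  classical
  obtain ⟨k, hk⟩ : ∃ k : γ ↪ ι, ∀ c, k c ∈ (Finset.univ.image f ∪ Finset.univ.image g)ᶜ := by
    have h1 : (Finset.univ.image f ∪ Finset.univ.image g).card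
        ≤ Fintype.card α + Fintype.card β :=
      (Finset.card_union_le _ _).trans (add_le_add Finset.card_image_le Finset.card_image_le)
    obtain ⟨k, hk⟩ := Function.Embedding.exists_of_card_le_finset (α := γ)
      (s := (Finset.univ.image f ∪ Finset.univ.image g)ᶜ) (by rw [Finset.card_compl]; omega)
    exact ⟨k, fun c => hk ⟨c, rfl⟩⟩
  simp only [Finset.mem_compl, Finset.mem_union, Finset.mem_image, Finset.mem_univ, true_and,
    not_or, not_exists] at hk
  have d1 : ∀ a c, f a ≠ k c := fun a c => (hk c).1 a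
  have d2 : ∀ c b, k c ≠ g b := fun c b => ((hk c).2 b) ∘ Eq.symm
  refine ((h' ι k g k.injective hg d2 hc).mul (((h ι f k hf k.injective d1 hc).mul
    (h'.neg ι k g k.injective hg d2 hc)).mul (h.neg ι f k hf k.injective d1 hc))).congr
    (by ring) ?_
  have key : ∀ A B : Matrix ι ι ℂ, A * A = 0 → A * B = 0 → B * B = 0 →
      (1 + B) * ((1 + A) * (1 + -B) * (1 + -A)) = 1 + B * A := by
    intro A B h1 h2 h3
    have h4 : B * (B * A) = 0 := by rw [← mul_assoc, h3, zero_mul]
    simp only [mul_add, add_mul, mul_neg, neg_mul, one_mul, mul_one, h1, h2, h3, h4, neg_zero,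
      add_zero, neg_neg]
    abel
  simp only [Matrix.mul_neg, Matrix.neg_mul]
  rw [key]
  · simp only [Matrix.mul_assoc]
    rw [← Matrix.mul_assoc (E k)ᵀ, Et_E k.injective, Matrix.one_mul]
  · simp only [Matrix.mul_assoc]
    rw [← Matrix.mul_assoc (E f)ᵀ, Et_E_disj d1]; simp
  · simp only [Matrix.mul_assoc]
    rw [← Matrix.mul_assoc (E f)ᵀ, Et_E_disj hd]; simp
  · simp only [Matrix.mul_assoc]
    rw [← Matrix.mul_assoc (E k)ᵀ, Et_E_disj d2]; simp

theorem shear_eq (X : Matrix β α ℂ) :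
    1 + E (Sum.inr : β → α ⊕ β) * X * (E (Sum.inl : α → α ⊕ β))ᵀ =
      fromBlocks (1 : Matrix α α ℂ) 0 X (1 : Matrix β β ℂ) := by
  ext (p | p) (q | q) <;> simp [E, Matrix.mul_apply, one_apply]

theorem Sh.lay {K ρ : ℕ} {X : Matrix β α ℂ} (h : Sh K ρ X)
    (hρ : ρ ≤ Fintype.card α + Fintype.card β) :
    Lay K (fromBlocks (1 : Matrix α α ℂ) 0 X (1 : Matrix β β ℂ)) := by
  rw [← shear_eq]
  exact h _ _ _ Sum.inl_injective Sum.inr_injective (fun _ _ => Sum.inl_ne_inr) (by simpa using hρ)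

theorem sh_of_lay {K : ℕ} {X : Matrix β α ℂ}
    (h : Lay K (fromBlocks (1 : Matrix α α ℂ) 0 X (1 : Matrix β β ℂ))) : Sh K 0 X :=
  fun ι _ _ f g hf hg hd _ => by
    refine (h.ext (f := Sum.elim f g) (hf.sumElim hg hd)).congr rfl ?_
    rw [← shear_eq, ext, add_sub_cancel_left, show f = Sum.elim f g ∘ Sum.inl from rfl,
      show g = Sum.elim f g ∘ Sum.inr from rfl, E_comp, E_comp]
    simp only [transpose_mul, Matrix.mul_assoc]
    rfl

/-- `2 × 2` blocks of diagonal matrices -/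
def bl (a b c d : α → ℂ) : Matrix (α ⊕ α) (α ⊕ α) ℂ :=
  fromBlocks (diagonal a) (diagonal b) (diagonal c) (diagonal d)

theorem bl_mul (a b c d a' b' c' d' : α → ℂ) : bl a b c d * bl a' b' c' d' =
    bl (fun i => a i * a' i + b i * c' i) (fun i => a i * b' i + b i * d' i)
      (fun i => c i * a' i + d i * c' i) (fun i => c i * b' i + d i * d' i) := by
  simp only [bl, fromBlocks_multiply, diagonal_mul_diagonal, diagonal_add]

theorem lay_bl_diag (a d : α → ℂ) : Lay 1 (bl a 0 0 d) :=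
  (lay_diagonal (Sum.elim a d)).congr rfl (by rw [← fromBlocks_diagonal]; simp [bl])

theorem lay_bl (a d : α → ℂ) :
    Lay 1 (bl (fun i => a i * al) (fun i => a i * be) (fun i => d i * be) fun i => d i * al) := by
  refine (lay_mono_gm id (Sum.elim a d) Sum.swap Sum.swap_swap).congr rfl ?_
  rw [mono_id_eq]
  ext (p | p) (q | q) <;> simp [bl, gm, diagonal_apply, eq_comm]

theorem be_eq : be = -Complex.I * al := by
  unfold al be; linear_combination (1 / 2 : ℂ) * Complex.I_mul_I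

theorem al_sq : al ^ 2 = Complex.I / 2 := by
  unfold al; linear_combination (1 / 4 : ℂ) * Complex.I_mul_I

theorem al_ne : al ≠ 0 := by
  intro h
  have := al_sq
  rw [h] at this
  exact Complex.I_ne_zero (by linear_combination -2 * this)

theorem lay_butterfly (d : α → ℂ) : Lay 2 (bl 1 d 1 (-d)) := by
  refine ((lay_bl (fun _ => al⁻¹) fun _ => Complex.I * al⁻¹).mul
    (lay_bl_diag 1 fun i => Complex.I * d i)).congr rfl ?_
  have := al_ne
  rw [bl_mul, be_eq]
  congr 1 <;> ext i <;> simp <;> field_simp <;> simp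

theorem sh_diag_ne (c : α → ℂ) (hc : ∀ i, c i ≠ 0) : Sh 4 0 (diagonal c) := by
  refine sh_of_lay (((((lay_bl (fun _ => (2 * be)⁻¹) fun i => 2 * c i / (5 * al)).mul
    (lay_bl 1 fun _ => 3)).mul (lay_bl 1 fun _ => 1 / 2)).mul
    (lay_bl_diag 1 fun i => 5 * al / (3 * be * c i))).congr rfl ?_)
  have := al_ne
  have h2 := al_sq
  have h3 := Complex.I_ne_zero
  have hI := Complex.I_mul_I
  rw [bl_mul, bl_mul, bl_mul, be_eq, ← diagonal_one, ← diagonal_zero]
  unfold bl
  congr 2 <;> ext i <;> have := hc i <;> simp only [Pi.one_apply, Pi.zero_apply] <;> field_simp <;>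
    grind

theorem sh_diag (c : α → ℂ) : Sh 8 0 (diagonal c) := by
  classical
  refine ((sh_diag_ne (fun i => c i - if c i = 1 then 2 else 1) fun i => ?_).add
    (sh_diag_ne (fun i => if c i = 1 then 2 else 1) fun i => ?_)).congr ?_
  · split_ifs with h
    · rw [h]; norm_num
    · exact sub_ne_zero.2 h
  · split_ifs <;> norm_num
  · rw [diagonal_add]; simp

theorem sh_E {f : α → β} (hf : Function.Injective f) : Sh 8 0 (E f) :=
  ((sh_diag (1 : α → ℂ)).emb Function.injective_id hf).congr (by simp [E_id])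

theorem sh_Et {f : β → α} (hf : Function.Injective f) : Sh 8 0 (E f)ᵀ :=
  ((sh_diag (1 : β → ℂ)).emb hf Function.injective_id).congr (by simp [E_id])

theorem sh_any (X : Matrix β α ℂ) : Sh (Fintype.card β * (Fintype.card α * 8)) 0 X := by
  refine (Sh.sum Finset.univ fun p : β => Sh.sum Finset.univ fun q : α =>
    (sh_diag (fun _ : Unit => X p q)).emb (f' := fun _ => q) (g' := fun _ => p)
      (Function.injective_of_subsingleton _) (Function.injective_of_subsingleton _)).congr ?_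
  ext p q
  simp [Matrix.sum_apply, Matrix.mul_apply, E]

end Ext

end Crest.Agent.R324
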