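import Crest.Agent.R324.Net

/-!
Row 324: tensor powers of the basic matrix in `O(N (log N)^θ)` gates.
-/

set_option autoImplicit false

open Set Matrix
open scoped Kronecker

namespace Crest.Agent.R324

section

variable {M : Type} [AddCommGroup M] [Module ℂ M] {I : Type} [Fintype I] [DecidableEq I]
  {l : ℕ} {P : ℝ}

theorem batch (hI : 8 ≤ Fintype.card I) (hP : ∀ a : I × I × I → ZMod 2, Cost M (rho l (q a)) P)
    (β : Type) [Fintype β] [DecidableEq β]
    (hβ : 2 * Fintype.card (Tri I) ^ 3 + 3 * Fintype.card (Tri I) ^ 4 ≤ Fintype.card β) :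
    Cost M ((1 : Matrix β β ℂ) ⊗ₖ rho l (F3 I))
      ((Fintype.card β * (Fintype.card I) ^ 3 - (2 * (Fintype.card (Tri I)) ^ 3
        - 3 * (Fintype.card (Tri I)) ^ 2 * (Fintype.card I) ^ 2)) * P
        + netC I * Fintype.card (Fin l → I × I × I → ZMod 2)) := fun x => by
  let T3 := Tri I × Tri I × Tri I
  let ZZ := (Tri I × Tri I) × Zp I
  let W := T3 ⊕ T3 ⊕ ZZ ⊕ ZZ ⊕ ZZ
  have hW : Fintype.card W = 2 * Fintype.card (Tri I) ^ 3 +
      3 * Fintype.card (Tri I) ^ 2 * Fintype.card (Zp I) := by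
    simp only [W, T3, ZZ, Fintype.card_sum, Fintype.card_prod]; ring
  have hZ : Fintype.card (Zp I) ≤ Fintype.card (Tri I) ^ 2 := by
    have := Fintype.card_subtype_le (fun p : Tri I × Tri I => orth p.1 p.2)
    rwa [Fintype.card_prod, ← sq] at this
  have hWβ : Fintype.card W ≤ Fintype.card β := by
    refine le_trans ?_ hβ
    rw [hW, show 3 * Fintype.card (Tri I) ^ 4 = 3 * Fintype.card (Tri I) ^ 2 *
      Fintype.card (Tri I) ^ 2 by ring]
    gcongr
  obtain ⟨e⟩ := Function.Embedding.nonempty_of_card_le hWβ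
  let s : β → (Fin l → I × I × I → ZMod 2) → M := fun b p => x (b, p)
  have hs : ∀ b, range (s b) ⊆ range x := fun b => by rintro _ ⟨p, rfl⟩; exact mem_range_self _
  have h1 := network hI hP (fun u => s (e (.inl u))) (fun u => s (e (.inr (.inl u))))
    (fun u => s (e (.inr (.inr (.inl u))))) (fun u => s (e (.inr (.inr (.inr (.inl u))))))
    (fun u => s (e (.inr (.inr (.inr (.inr u)))))) (fun _ => hs _) (fun _ => hs _) (fun _ => hs _)
    (fun _ => hs _) (fun _ => hs _)
  have hm : Mv M l P ((Fintype.card I) ^ 3) (F3 I) :=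
    (Mv.sum Finset.univ fun i => Mv.sum Finset.univ fun j => mv_N3 hP (ev i) (ev j)).congr
      (by simp; ring) rfl
  have h2 := Der.biUnion (Finset.univ.map e)ᶜ (T := fun b => Fr l (F3 I) (s b))
    fun b _ => hm.der (σ := 0) (add_zero _).symm (by rw [fr_zero]; exact hs b)
  refine (h1.union h2).mono subset_rfl (le_of_eq ?_) ?_
  · rw [Finset.sum_const, Finset.card_compl, Finset.card_map, Finset.card_univ, nsmul_eq_mul,
      Nat.cast_sub hWβ, hW]
    push_cast; ring
  · rintro _ ⟨⟨b, p⟩, rfl⟩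
    rw [app_one_kron]
    have hb : ∀ w, app (rho l (F3 I)) (s w) p ∈ Fr l (F3 I) (s w) := fun w => mem_range_self p
    by_cases h : b ∈ Finset.univ.map e
    · obtain ⟨w, -, rfl⟩ := Finset.mem_map.1 h
      left
      rcases w with u | u | u | u | u
      · exact Or.inl (Or.inl (Or.inl (Or.inl (mem_iUnion.2 ⟨u, hb _⟩))))
      · exact Or.inl (Or.inl (Or.inl (Or.inr (mem_iUnion.2 ⟨u, hb _⟩))))
      · exact Or.inl (Or.inl (Or.inr (mem_iUnion.2 ⟨u, hb _⟩)))
      · exact Or.inl (Or.inr (mem_iUnion.2 ⟨u, hb _⟩))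
      · exact Or.inr (mem_iUnion.2 ⟨u, hb _⟩)
    · exact Or.inr (mem_iUnion₂.2 ⟨b, Finset.mem_compl.2 h, hb _⟩)

theorem GoodAt.add {a b : ℕ} {s t : ℝ} (h : GoodAt M a s) (h' : GoodAt M b t) :
    GoodAt M (a + b) (s + t) := by
  unfold GoodAt at *
  rw [CC_equiv (finSumFinEquiv (m := a) (n := b)).symm, CC_sum]
  refine Cost.submatrix (Cost.submatrix ?_ _ _) _ _
  have := (h.kron_one (Fin b → ZMod 2)).mul (h'.one_kron (Fin a → ZMod 2))
  rw [← Matrix.mul_kronecker_mul, Matrix.mul_one, Matrix.one_mul] at this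
  refine this.le (le_of_eq ?_)
  simp; ring

theorem GoodAt.le {a : ℕ} {s t : ℝ} (h : GoodAt M a s) (hst : s ≤ t) : GoodAt M a t :=
  Cost.le h (by gcongr)

theorem card_tri16 : Fintype.card (Tri (Fin 16)) = 560 := by
  rw [Fintype.card_finset_len, Fintype.card_fin]; rfl

theorem netC_nonneg : 0 ≤ netC I := by unfold netC shC; positivity

theorem goodAt_step {t : ℝ} (ht : 0 ≤ t) (hg : ∀ j ≤ l, GoodAt M j t) :
    GoodAt M (39 + l * 4096) (117 + netC (Fin 16) + (4096 - 1 / 5000) * t) := by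
  have hcard : Fintype.card (Fin 39 ⊕ Fin l × (Fin 16 × Fin 16 × Fin 16)) = 39 + l * 4096 := by
    simp
  unfold GoodAt
  rw [CC_equiv (Fintype.equivFinOfCardEq hcard).symm, CC_sum]
  refine Cost.submatrix (Cost.submatrix ?_ _ _) _ _
  have h1 := batch (I := Fin 16) (by simp) (cost_rho_q M l ht hg) (Fin 39 → ZMod 2)
    (by rw [card_tri16]; simp)
  have h2 := h1.submatrix (Prod.map id (Equiv.curry _ _ _))
    (Equiv.prodCongr (Equiv.refl _) (Equiv.curry _ _ _))
  have e : ((1 : Matrix (Fin 39 → ZMod 2) (Fin 39 → ZMod 2) ℂ) ⊗ₖ rho l (F3 (Fin 16))).submatrix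
      (Prod.map id (Equiv.curry _ _ _)) (Equiv.prodCongr (Equiv.refl _) (Equiv.curry _ _ _))
      = 1 ⊗ₖ CC (Fin l × (Fin 16 × Fin 16 × Fin 16)) := by
    rw [rho_top, F3_eq]; rfl
  rw [e] at h2
  have := ((goodAt_base (M := M) 39).kron_one
    (Fin l × (Fin 16 × Fin 16 × Fin 16) → ZMod 2)).mul h2
  rw [← Matrix.mul_kronecker_mul, Matrix.mul_one, Matrix.one_mul] at this
  refine this.le ?_
  have hX : (Fintype.card (Fin l → Fin 16 × Fin 16 × Fin 16 → ZMod 2) : ℝ) = 2 ^ (l * 4096) := by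
    simp only [Fintype.card_fun, ZMod.card, Fintype.card_prod, Fintype.card_fin]
    push_cast
    rw [← pow_mul, mul_comm]
  have hX' : (Fintype.card (Fin l × (Fin 16 × Fin 16 × Fin 16) → ZMod 2) : ℝ)
      = 2 ^ (l * 4096) := by
    simp only [Fintype.card_fun, ZMod.card, Fintype.card_prod, Fintype.card_fin]
    push_cast
    rfl
  rw [hX, hX', card_tri16, pow_add]
  simp only [Fintype.card_fun, ZMod.card, Fintype.card_fin]
  have h0 : (0 : ℝ) < 2 ^ (l * 4096) := by positivity
  generalize (2 : ℝ) ^ (l * 4096) = X at h0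
  have hc := netC_nonneg (I := Fin 16)
  have h3 := mul_nonneg hc h0.le
  have h4 := mul_nonneg ht h0.le
  push_cast
  nlinarith

end

/-- the exponent achieved -/
noncomputable def th0 : ℝ := 1 - 1 / 10 ^ 9

theorem pow_th0 : (4096 : ℝ) - 1 / 10000 ≤ 4096 ^ th0 := by
  have h1 : (4096 : ℝ) ^ th0 = 4096 * Real.exp (-(Real.log 4096 / 10 ^ 9)) := by
    rw [th0, Real.rpow_sub (by norm_num), Real.rpow_one, Real.rpow_def_of_pos (by norm_num),
      Real.exp_neg, div_eq_mul_inv]
    congr 3; ring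
  have h2 : Real.log 4096 ≤ 12 := by
    rw [show (4096 : ℝ) = 2 ^ 12 by norm_num, Real.log_pow]
    have := Real.log_two_lt_d9
    push_cast; linarith
  have h3 := Real.add_one_le_exp (-(Real.log 4096 / 10 ^ 9))
  rw [h1]
  nlinarith

theorem good : ∃ C : ℝ, 0 ≤ C ∧ ∀ (M : Type) [AddCommGroup M] [Module ℂ M] (j : ℕ),
    GoodAt M j (C * (j : ℝ) ^ th0) := by
  have hc := netC_nonneg (I := Fin 16)
  have hth : 0 < th0 := by unfold th0; norm_num
  set c := netC (Fin 16)
  refine ⟨10 ^ 8 * (13000 + c), by positivity, fun M _ _ j => ?_⟩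
  set C := 10 ^ 8 * (13000 + c) with hC
  have hC0 : 0 ≤ C := by positivity
  induction j using Nat.strong_induction_on with
  | _ j ih =>
    by_cases hj : j < 39 + 4096
    · refine (goodAt_base j).le ?_
      rcases Nat.eq_zero_or_pos j with rfl | hj0
      · simp [hth.ne']
      · have h1 : (1 : ℝ) ≤ (j : ℝ) ^ th0 := Real.one_le_rpow (by exact_mod_cast hj0) hth.le
        have h2 : (j : ℝ) ≤ 39 + 4096 := by exact_mod_cast hj.le
        nlinarith
    · set l := (j - 39) / 4096 with hl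
      set r := (j - 39) % 4096 with hr
      have e : j = r + (39 + l * 4096) := by omega
      have hr' : (r : ℝ) ≤ 4096 := by exact_mod_cast (by omega : r ≤ 4096)
      have hl1 : (1 : ℝ) ≤ l := by exact_mod_cast (by omega : 1 ≤ l)
      have h1 := (goodAt_base (M := M) r).add (goodAt_step (l := l) (t := C * (l : ℝ) ^ th0)
        (by positivity) fun i hi => (ih i (by omega)).le (by gcongr))
      rw [← e] at h1
      refine h1.le ?_
      have h2 : (4096 * (l : ℝ)) ^ th0 ≤ (j : ℝ) ^ th0 := by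
        refine Real.rpow_le_rpow (by positivity) ?_ hth.le
        exact_mod_cast (by omega : 4096 * l ≤ j)
      rw [Real.mul_rpow (by norm_num) (by positivity)] at h2
      have h3 : (1 : ℝ) ≤ (l : ℝ) ^ th0 := Real.one_le_rpow hl1 hth.le
      have h4 := mul_le_mul_of_nonneg_right pow_th0 (zero_le_one.trans h3)
      have h5 := mul_le_mul_of_nonneg_left (h4.trans h2) hC0
      have h6 : C ≤ C * (l : ℝ) ^ th0 := le_mul_of_one_le_right hC0 h3
      nlinarith

end Crest.Agent.R324
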