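import Crest.Agent.R324.Fact
import Crest.Agent.R324.Rec

/-!
Row 324: assembly.
-/

set_option autoImplicit false

open Matrix

namespace Crest.Agent.R324

section

variable {M : Type} [AddCommGroup M] [Module ℂ M]

theorem cost_diagonal {ι : Type} [Fintype ι] [DecidableEq ι] (d : ι → ℂ) :
    Cost M (diagonal d) (Fintype.card ι) := mono_id_eq d ▸ cost_mono id d

theorem cost_circ {κ : Type} [Fintype κ] [DecidableEq κ] (s : κ → ℕ) [∀ i, NeZero (s i)] (k : ℕ)
    (hs : ∀ i, s i ≤ 2 ^ k) {t : ℝ} (ht : 0 ≤ t) (hg : ∀ j ≤ Fintype.card κ, GoodAt M j t)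
    (r : (∀ i, ZMod (s i)) → ℂ) :
    Cost M (circulant r)
      (4 * (4000003 * (k + 1) ^ 2) * (1 + t) * Fintype.card (∀ i, ZMod (s i))) := by
  have hζ := fun i => Complex.isPrimitiveRoot_exp (s i) (NeZero.ne _)
  have h1 := cost_tens ht hg _ _ fun i => (lay_vm k (s i) (hs i) (hζ i)).dm
  have h2 := cost_tens ht hg _ _ fun i =>
    (lay_diagonal fun _ => (s i : ℂ)⁻¹).mul (lay_vm k (s i) (hs i) (hζ i).inv).dm
  rw [circ_eq (fun x y z => ?_) (by rw [← tens_mul, funext fun i => dm_mul (hζ i), tens_one]) r]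
  · refine ((h2.mul (cost_diagonal _)).mul h1).le ?_
    have a1 : (0 : ℝ) ≤ Fintype.card (∀ i, ZMod (s i)) := Nat.cast_nonneg _
    have a2 : (1 : ℝ) ≤ (k + 1) ^ 2 := one_le_pow₀ (by simp)
    push_cast
    have := mul_nonneg (mul_nonneg (sub_nonneg.2 a2) (by linarith : 0 ≤ 1 + t)) a1
    nlinarith [mul_nonneg ht a1]
  · simp only [tens, of_apply, Pi.add_apply, dm_add (hζ _).pow_eq_one, Finset.prod_mul_distrib]

theorem cost_toep {n N : ℕ} (hN : 2 * n ≤ N) (hn : 0 < n) (k : ℕ)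
    (hs : ∀ p ∈ N.primeFactors, p ^ N.factorization p ≤ 2 ^ k) {t : ℝ} (ht : 0 ≤ t)
    (hg : ∀ j ≤ N.primeFactors.card, GoodAt M j t) (c : ℤ → ℂ) :
    Cost M (toep c (Fin.val : Fin n → ℕ) (Fin.val : Fin n → ℕ))
      (4 * (4000003 * (k + 1) ^ 2) * (1 + t) * N + 2 * n) := by
  have : NeZero N := ⟨by omega⟩
  have : ∀ p : N.primeFactors, NeZero (p.1 ^ N.factorization p) := fun p =>
    ⟨pow_ne_zero _ (Nat.prime_of_mem_primeFactors p.2).ne_zero⟩
  obtain ⟨r, e⟩ := toep_circ c (Fin.val : Fin n → ℕ) (Fin.val : Fin n → ℕ) N (-n) fun p q => by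
    have := p.2; have := q.2; omega
  let φ := ZMod.equivPi N (NeZero.ne N)
  have h1 := cost_circ (M := M) (fun p : N.primeFactors => p.1 ^ N.factorization p) k
    (fun p => hs p p.2) ht (by simpa using hg) (r ∘ φ.symm)
  rw [← Fintype.card_congr φ.toEquiv, ZMod.card] at h1
  have h2 := ((cost_sel (M := M) fun p : Fin n => φ p).mul h1).mul
    (cost_mono_transpose fun p : Fin n => φ p)
  have h3 : mono (fun p : Fin n => φ p) 1 = (E fun p : Fin n => φ p)ᵀ := by
    ext p q; simp [mono, E]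
  rw [h3, transpose_transpose, Et_mul_E] at h2
  convert h2 using 1
  · rw [e]
    ext p q
    simp only [submatrix_apply, circulant_apply, Function.comp, ← map_sub,
      RingEquiv.symm_apply_apply]
  · simp

theorem cost_dft {n N : ℕ} (hN : 2 * n ≤ N) (hn : 0 < n) (k : ℕ)
    (hs : ∀ p ∈ N.primeFactors, p ^ N.factorization p ≤ 2 ^ k) {t : ℝ} (ht : 0 ≤ t)
    (hg : ∀ j ≤ N.primeFactors.card, GoodAt M j t) :
    Cost M (Crest.FourierCircuit.dftMatrix n)
      (4 * (4000003 * (k + 1) ^ 2) * (1 + t) * N + 4 * n) := by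
  have h := ((cost_diagonal (M := M)
    fun j : Fin n => Complex.exp (Real.pi * Complex.I / n * (j : ℕ) ^ 2)).mul
      (cost_toep hN hn k hs ht hg fun d => Complex.exp (-(Real.pi * Complex.I / n * d ^ 2)))).mul
    (cost_diagonal fun j : Fin n => Complex.exp (Real.pi * Complex.I / n * (j : ℕ) ^ 2))
  convert h using 1
  · ext j l
    simp only [mul_diagonal, diagonal_mul, toep, of_apply, Crest.FourierCircuit.dftMatrix,
      ← Complex.exp_add, ← Complex.exp_nat_mul]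
    congr 1
    push_cast
    ring
  · simp; ring

end

theorem lcmUpto_succ_le (y : ℕ) : Nat.lcmUpto (y + 1) ≤ (y + 1) * Nat.lcmUpto y := by
  refine Nat.le_of_dvd (Nat.mul_pos y.succ_pos (Nat.lcmUpto_pos y)) (Finset.lcm_dvd fun b hb => ?_)
  rcases (Finset.mem_Icc.1 hb).2.eq_or_lt with h | h
  · exact h ▸ dvd_mul_right _ _
  · exact (Finset.dvd_lcm (f := id) (Finset.mem_Icc.2
      ⟨(Finset.mem_Icc.1 hb).1, by omega⟩)).mul_left _

theorem sq_le_two_pow (y : ℕ) : (y + 1) ^ 2 ≤ 4 * 2 ^ y := by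
  induction y with
  | zero => simp
  | succ y ih => have := y.lt_two_pow_self; rw [pow_succ 2 y]; nlinarith

theorem exists_N {m : ℕ} (hm : 0 < m) : ∃ N y k : ℕ, m ≤ N ∧ N ≤ 2 * m ∧ 2 ^ y ≤ 4 * m ^ 2 ∧
    2 ^ k ≤ 4 * (y + 1) ^ 2 ∧ ∀ p ∈ N.primeFactors, p ^ N.factorization p ≤ 2 ^ k := by
  have h1 : ∃ y, m < Nat.lcmUpto (y + 1) := ⟨m, Nat.le_of_dvd (Nat.lcmUpto_pos _)
    (Finset.dvd_lcm (f := id) (Finset.mem_Icc.2 ⟨by omega, le_rfl⟩))⟩
  obtain ⟨y, y1, y2⟩ : ∃ y, m < Nat.lcmUpto (y + 1) ∧ Nat.lcmUpto y ≤ m := by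
    refine ⟨Nat.find h1, Nat.find_spec h1, ?_⟩
    rcases h : Nat.find h1 with _ | y
    · simpa [Nat.lcmUpto] using Nat.succ_le_of_lt hm
    · exact not_lt.1 (Nat.find_min h1 (by omega))
  have hΛ := Nat.lcmUpto_pos y
  have h2 : ∃ a, m ≤ 2 ^ a * Nat.lcmUpto y := ⟨m, by nlinarith [m.lt_two_pow_self]⟩
  obtain ⟨a, a1, a2⟩ : ∃ a, m ≤ 2 ^ a * Nat.lcmUpto y ∧ 2 ^ a * Nat.lcmUpto y ≤ 2 * m := by
    refine ⟨Nat.find h2, Nat.find_spec h2, ?_⟩
    rcases h : Nat.find h2 with _ | a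
    · omega
    · have := not_le.1 (Nat.find_min h2 (m := a) (by omega))
      rw [pow_succ]; nlinarith
  have a3 : 2 ^ a ≤ 2 * (y + 1) := by
    have := lcmUpto_succ_le y
    exact Nat.le_of_mul_le_mul_right (by nlinarith) hΛ
  have h3 : 2 ^ y ≤ (y + 1) * m :=
    (Chebyshev.two_pow_le_mul_lcmUpto y).trans (Nat.mul_le_mul_left _ y2)
  have h4 : 2 ^ y ≤ 4 * m ^ 2 := by
    have b1 := Nat.pow_le_pow_left h3 2
    have b2 := Nat.mul_le_mul_right (m ^ 2) (sq_le_two_pow y)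
    exact Nat.le_of_mul_le_mul_right (c := 2 ^ y) (by nlinarith) (by positivity)
  refine ⟨_, y, Nat.log 2 (4 * (y + 1) ^ 2), a1, a2, h4, Nat.pow_log_le_self 2 (by positivity),
    fun p hp => ?_⟩
  have hp' := Nat.prime_of_mem_primeFactors hp
  have b1 := Nat.lt_pow_succ_log_self (b := 2) (by norm_num) (4 * (y + 1) ^ 2)
  have b2 : p ^ (2 ^ a).factorization p ≤ 2 ^ a := Nat.ordProj_le p (by positivity)
  have b3 : p ^ p.log y ≤ y + 1 := by
    rcases Nat.eq_zero_or_pos y with rfl | h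
    · simp
    · exact (Nat.pow_log_le_self p h.ne').trans y.le_succ
  rw [Nat.factorization_mul (by positivity) hΛ.ne', Finsupp.add_apply,
    Nat.factorization_lcmUpto y hp', pow_add]
  have := Nat.mul_le_mul (b2.trans a3) b3
  rw [Nat.succ_eq_add_one, pow_succ 2] at b1
  nlinarith

theorem two_pow_card_le {N : ℕ} (hN : 0 < N) : 2 ^ N.primeFactors.card ≤ N :=
  (Finset.pow_card_le_prod _ (fun p => p) 2 fun _ hp =>
    (Nat.prime_of_mem_primeFactors hp).two_le).trans (Nat.le_of_dvd hN N.prod_primeFactors_dvd)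

theorem th0_le : th0 ≤ Crest.FourierCircuit.savingExponent := by
  rw [Crest.FourierCircuit.savingExponent, Real.le_logb_iff_rpow_le (by norm_num) (by norm_num),
    th0, Real.rpow_sub (by norm_num), Real.rpow_one, div_le_iff₀ (by positivity)]
  have h1 : (1 : ℝ) ≤ Real.log (10 ^ 6) := by
    rw [Real.le_log_iff_exp_le (by norm_num)]
    exact Real.exp_one_lt_d9.le.trans (by norm_num)
  have h2 : (1 : ℝ) + 1 / 10 ^ 9 ≤ (10 ^ 6 : ℝ) ^ (1 / 10 ^ 9 : ℝ) := by
    rw [Real.rpow_def_of_pos (by norm_num)]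
    have := Real.add_one_le_exp (Real.log (10 ^ 6) * (1 / 10 ^ 9))
    generalize Real.log (10 ^ 6) = z at *
    linarith
  refine le_trans ?_ (mul_le_mul_of_nonneg_left h2 (by norm_num))
  norm_num

theorem exponent_le : Crest.FourierCircuit.savingExponent ≤ 1 := by
  rw [Crest.FourierCircuit.savingExponent, Real.logb_le_iff_le_rpow (by norm_num) (by norm_num)]
  norm_num

theorem le_of_two_pow_le {a : ℕ} {x : ℝ} (h : (2 : ℝ) ^ a ≤ x) : (a : ℝ) ≤ 3 / 2 * Real.log x := by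
  have h1 := Real.log_le_log (by positivity) h
  rw [Real.log_pow] at h1
  have := Real.log_two_gt_d9
  have h0 : (0 : ℝ) ≤ a := Nat.cast_nonneg a
  nlinarith

theorem main : ∃ C : ℝ, ∃ N₀ : ℕ, ∀ n ≥ N₀, ∃ P : Crest.FourierCircuit.LinCircuit n,
    P.Computes (Crest.FourierCircuit.dftMatrix n) ∧
      (P.size : ℝ) ≤ C * n * Real.log n ^ Crest.FourierCircuit.savingExponent *
        Real.log (Real.log n) ^ (4 - Crest.FourierCircuit.savingExponent) := by
  obtain ⟨C, hC, hg⟩ := good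
  refine ⟨20 * (4000003 * 13 ^ 2) * (1 + 3 * C), 16, fun n hn => ?_⟩
  obtain ⟨N, y, k, h1, h2, h3, h4, h5⟩ := exists_N (m := 2 * n) (by omega)
  have hn' : (16 : ℝ) ≤ n := by exact_mod_cast hn
  have l2 := Real.log_two_gt_d9
  have l2' := Real.log_two_lt_d9
  have l16 : Real.log 16 ≤ Real.log n := Real.log_le_log (by norm_num) hn'
  have e16 : Real.log 16 = 4 * Real.log 2 := by
    rw [show (16 : ℝ) = 2 ^ 4 by norm_num, Real.log_pow]; norm_num
  set L := Real.log n with hL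
  have hL1 : 1 ≤ L := by linarith
  have hLL : 1 ≤ Real.log L := by
    rw [Real.le_log_iff_exp_le (by linarith)]
    exact Real.exp_one_lt_d9.le.trans (by linarith)
  have hy : (y : ℝ) + 1 ≤ 6 * L := by
    have := le_of_two_pow_le (a := y) (x := 16 * n ^ 2) (by
      exact_mod_cast h3.trans (le_of_eq (by ring)))
    rw [Real.log_mul (by norm_num) (by positivity), Real.log_pow] at this
    push_cast at this
    linarith
  have hk : (k : ℝ) + 1 ≤ 13 * Real.log L := by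
    have b : (2 : ℝ) ^ k ≤ 4 * (y + 1) ^ 2 := by exact_mod_cast h4
    have := le_of_two_pow_le (a := k) (x := 16 ^ 2 * L ^ 2) (b.trans (by
      have := pow_le_pow_left₀ (by positivity) hy 2
      nlinarith))
    rw [Real.log_mul (by norm_num) (by positivity), Real.log_pow, Real.log_pow] at this
    push_cast at this
    linarith
  have hc : (N.primeFactors.card : ℝ) ≤ 3 * L := by
    have := le_of_two_pow_le (a := N.primeFactors.card) (x := 16 * n) (by
      exact_mod_cast (two_pow_card_le (N := N) (by omega)).trans (by omega))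
    rw [Real.log_mul (by norm_num) (by positivity)] at this
    linarith
  have hth : 0 ≤ th0 := by unfold th0; norm_num
  have hθ := th0_le
  have hθ' := exponent_le
  set θ := Crest.FourierCircuit.savingExponent
  have hP : 1 ≤ L ^ θ := Real.one_le_rpow hL1 (hth.trans hθ)
  have h6 := cost_dft (M := (Fin n → ℂ) → ℂ) h1 (by omega) k h5 (t := 3 * C * L ^ θ)
    (by positivity) fun j hj => (hg _ j).le (by
      have b1 : (j : ℝ) ≤ 3 * L := le_trans (by exact_mod_cast hj) hc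
      have b2 : (j : ℝ) ^ th0 ≤ 3 * L ^ θ :=
        calc _ ≤ (3 * L) ^ th0 := Real.rpow_le_rpow (Nat.cast_nonneg j) b1 hth
          _ ≤ (3 * L) ^ θ := Real.rpow_le_rpow_of_exponent_le (by linarith) hθ
          _ = 3 ^ θ * L ^ θ := Real.mul_rpow (by norm_num) (by linarith)
          _ ≤ 3 ^ (1 : ℝ) * L ^ θ := by gcongr; norm_num
          _ = _ := by rw [Real.rpow_one]
      nlinarith)
  obtain ⟨P, hP1, hP2⟩ := h6.circuit
  refine ⟨P, hP1, hP2.trans ?_⟩
  have hN : (N : ℝ) ≤ 4 * n := by exact_mod_cast h2.trans (le_of_eq (by ring))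
  have b1 : ((k : ℝ) + 1) ^ 2 ≤ 13 ^ 2 * Real.log L ^ (4 - θ) :=
    calc _ ≤ (13 * Real.log L) ^ 2 := by gcongr
      _ = 13 ^ 2 * Real.log L ^ (2 : ℝ) := by rw [mul_pow, Real.rpow_two]
      _ ≤ _ := by gcongr; linarith
  have b2 : 1 + 3 * C * L ^ θ ≤ (1 + 3 * C) * L ^ θ := by linarith
  have b3 : (1 : ℝ) ≤ (4000003 * ((k : ℝ) + 1) ^ 2) * (1 + 3 * C * L ^ θ) := by
    have a2 : (1 : ℝ) ≤ (k + 1) ^ 2 := one_le_pow₀ (by simp)
    exact one_le_mul_of_one_le_of_one_le (by linarith) (le_add_of_nonneg_right (by positivity))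
  calc _ ≤ 4 * (4000003 * ((k : ℝ) + 1) ^ 2) * (1 + 3 * C * L ^ θ) * (4 * n) +
        4 * n * ((4000003 * ((k : ℝ) + 1) ^ 2) * (1 + 3 * C * L ^ θ)) := by
        refine add_le_add (by gcongr) (le_mul_of_one_le_right (by positivity) b3)
    _ = 20 * (4000003 * ((k : ℝ) + 1) ^ 2) * (1 + 3 * C * L ^ θ) * n := by ring
    _ ≤ 20 * (4000003 * (13 ^ 2 * Real.log L ^ (4 - θ))) * ((1 + 3 * C) * L ^ θ) * n := by gcongr
    _ = _ := by ring

end Crest.Agent.R324
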