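import Crest.Agent.R324.Shear

/-!
Row 324: the network that transforms many arrays with fewer passes.
-/

set_option autoImplicit false

open Set Matrix

namespace Crest.Agent.R324

variable {M : Type} [AddCommGroup M] [Module ℂ M] {I : Type} [Fintype I] [DecidableEq I]
  {l : ℕ} {P : ℝ}

/-- tensor product of three vectors -/
def t3 (a b c : I → ZMod 2) : I × I × I → ZMod 2 := fun p => a p.1 * b p.2.1 * c p.2.2

/-- pass along a pure tensor -/
def w3 (a b c : I → ZMod 2) : (I × I × I → ZMod 2) → ZMod 4 := q (t3 a b c)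

/-- frames -/
def F1 (b c : I → ZMod 2) : (I × I × I → ZMod 2) → ZMod 4 := ∑ i, w3 (ev i) b c
/-- frames -/
def N2 (a c : I → ZMod 2) : (I × I × I → ZMod 2) → ZMod 4 := ∑ j, w3 a (ev j) c
/-- frames -/
def N3 (a b : I → ZMod 2) : (I × I × I → ZMod 2) → ZMod 4 := ∑ k, w3 a b (ev k)
/-- frames -/
def F2 (c : I → ZMod 2) : (I × I × I → ZMod 2) → ZMod 4 := ∑ i, N2 (ev i) c
/-- frames -/
def F3 (I : Type) [Fintype I] [DecidableEq I] : (I × I × I → ZMod 2) → ZMod 4 :=
  ∑ i, ∑ j, N3 (ev i) (ev j)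

theorem F3_eq : F3 I = ∑ p : I × I × I, q (Pi.single p 1) := by
  simp only [F3, N3, Fintype.sum_prod_type, w3]
  refine Finset.sum_congr rfl fun i _ => Finset.sum_congr rfl fun j _ =>
    Finset.sum_congr rfl fun k _ => ?_
  congr 1
  ext ⟨a, b, c⟩
  simp only [t3, ev, Pi.single_apply, Prod.mk.injEq]
  by_cases h1 : a = i <;> by_cases h2 : b = j <;> by_cases h3 : c = k <;> simp [h1, h2, h3]

theorem quad1 (b c : I → ZMod 2) : Quad M l P fun a => w3 a b c :=
  quad_q (fun a => t3 a b c) fun _ _ => by ext p; simp [t3, add_mul]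
theorem quad2 (a c : I → ZMod 2) : Quad M l P fun b => w3 a b c :=
  quad_q (fun b => t3 a b c) fun _ _ => by ext p; simp [t3, add_mul, mul_add]
theorem quad3 (a b : I → ZMod 2) : Quad M l P fun c => w3 a b c :=
  quad_q (fun c => t3 a b c) fun _ _ => by ext p; simp [t3, mul_add]

section Moves

variable (hI : 8 ≤ Fintype.card I) (hP : ∀ a : I × I × I → ZMod 2, Cost M (rho l (q a)) P)
include hP

theorem mv_w (a b c : I → ZMod 2) : Mv M l P 1 (w3 a b c) := mv_q (hP _)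

theorem mv_F1 (b c : I → ZMod 2) : Mv M l P (Fintype.card I) (F1 b c) :=
  (Mv.sum Finset.univ fun i => mv_w hP (ev i) b c).congr (by simp) rfl
theorem mv_N2 (a c : I → ZMod 2) : Mv M l P (Fintype.card I) (N2 a c) :=
  (Mv.sum Finset.univ fun i => mv_w hP a (ev i) c).congr (by simp) rfl
theorem mv_N3 (a b : I → ZMod 2) : Mv M l P (Fintype.card I) (N3 a b) :=
  (Mv.sum Finset.univ fun i => mv_w hP a b (ev i)).congr (by simp) rfl

include hI

theorem mv_A1 (S : Tri I) (b c : I → ZMod 2) :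
    Mv M l P (Fintype.card I - 1) (F1 b c - w3 (uv S.1) b c) :=
  (mv_A hI (quad1 b c) (fun a => mv_w hP a b c) S.2).congr (mul_one _) rfl
theorem mv_A2 (S : Tri I) (a c : I → ZMod 2) :
    Mv M l P (Fintype.card I - 1) (N2 a c - w3 a (uv S.1) c) :=
  (mv_A hI (quad2 a c) (fun b => mv_w hP a b c) S.2).congr (mul_one _) rfl
theorem mv_A3 (S : Tri I) (a b : I → ZMod 2) :
    Mv M l P (Fintype.card I - 1) (N3 a b - w3 a b (uv S.1)) :=
  (mv_A hI (quad3 a b) (fun c => mv_w hP a b c) S.2).congr (mul_one _) rfl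

theorem mv_B1 (S T : Tri I) (ho : orth S T) (b c : I → ZMod 2) :
    Mv M l P (Fintype.card I - 2) (F1 b c - w3 (uv S.1) b c - w3 (uv T.1) b c) :=
  (mv_B hI (quad1 b c) (fun a => mv_w hP a b c) S.2 T.2 ho).congr (mul_one _) rfl
theorem mv_B2 (S T : Tri I) (ho : orth S T) (a c : I → ZMod 2) :
    Mv M l P (Fintype.card I - 2) (N2 a c - w3 a (uv S.1) c - w3 a (uv T.1) c) :=
  (mv_B hI (quad2 a c) (fun b => mv_w hP a b c) S.2 T.2 ho).congr (mul_one _) rfl
theorem mv_B3 (S T : Tri I) (ho : orth S T) (a b : I → ZMod 2) :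
    Mv M l P (Fintype.card I - 2) (N3 a b - w3 a b (uv S.1) - w3 a b (uv T.1)) :=
  (mv_B hI (quad3 a b) (fun c => mv_w hP a b c) S.2 T.2 ho).congr (mul_one _) rfl

theorem mv_d1 (S T : Tri I) (c : I → ZMod 2) :
    Mv M l P ((Fintype.card I - 1) * (Fintype.card I - 1))
      (F2 c - N2 (uv S.1) c - F1 (uv T.1) c + w3 (uv S.1) (uv T.1) c) := by
  refine (mv_A hI (Φ := fun a => N2 a c - w3 a (uv T.1) c)
    ((Quad.sum _ fun j => quad1 (ev j) c).sub (quad1 _ c)) (fun a => mv_A2 hI hP T a c) S.2).congr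
    rfl ?_
  simp only [Finset.sum_sub_distrib, F1, F2]; abel

theorem mv_d2 (S T R : Tri I) :
    Mv M l P ((Fintype.card I + 1) * ((Fintype.card I - 1) * (Fintype.card I - 1)))
      (F3 I - N3 (uv S.1) (uv T.1) - F2 (uv R.1) + w3 (uv S.1) (uv T.1) (uv R.1)) := by
  refine ((Mv.sum Finset.univ fun i => mv_A hI (Φ := fun b => N3 (ev i) b - w3 (ev i) b (uv R.1))
    ((Quad.sum _ fun j => quad2 _ (ev j)).sub (quad2 _ _)) (fun b => mv_A3 hI hP R _ b) T.2).add
    (mv_A hI (Φ := fun a => N3 a (uv T.1) - w3 a (uv T.1) (uv R.1))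
    ((Quad.sum _ fun j => quad1 _ (ev j)).sub (quad1 _ _)) (fun a => mv_A3 hI hP R a _) S.2)).congr
    (by simp; ring) ?_
  simp only [Finset.sum_sub_distrib, F3, F2, N2]; abel

theorem mv_32 (R : Tri I) : Mv M l P (Fintype.card I * (Fintype.card I * (Fintype.card I - 1)))
    (F3 I - F2 (uv R.1)) := by
  refine (Mv.sum Finset.univ fun i => Mv.sum Finset.univ fun j =>
    mv_A3 hI hP R (ev i) (ev j)).congr (by simp) ?_
  simp only [Finset.sum_sub_distrib, F3, F2, N2]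

theorem mv_21 (T : Tri I) (c : I → ZMod 2) : Mv M l P (Fintype.card I * (Fintype.card I - 1))
    (F2 c - F1 (uv T.1) c) := by
  refine (Mv.sum Finset.univ fun i => mv_A2 hI hP T (ev i) c).congr (by simp) ?_
  simp only [Finset.sum_sub_distrib, F2, F1]

theorem mv_D2 (S : Tri I) (c : I → ZMod 2) : Mv M l P (Fintype.card I * (Fintype.card I - 1))
    (F2 c - N2 (uv S.1) c) := by
  refine (Mv.sum Finset.univ fun j => mv_A1 hI hP S (ev j) c).congr (by simp) ?_
  simp only [Finset.sum_sub_distrib, F2, F1, N2]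
  rw [Finset.sum_comm]

theorem mv_D3 (S T : Tri I) : Mv M l P
    (Fintype.card I * (Fintype.card I * (Fintype.card I - 1) + (Fintype.card I - 1)))
    (F3 I - N3 (uv S.1) (uv T.1)) := by
  refine (Mv.sum Finset.univ fun k => (mv_21 hI hP T (ev k)).add
    (mv_A1 hI hP S (uv T.1) (ev k))).congr (by simp) ?_
  simp only [Finset.sum_sub_distrib, F2, F3, N3, N2, sub_add_sub_cancel]
  congr 1
  rw [Finset.sum_comm]
  exact Finset.sum_congr rfl fun i _ => Finset.sum_comm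

end Moves

/-- orthogonal pairs -/
abbrev Zp (I : Type) [DecidableEq I] : Type := {p : Tri I × Tri I // orth p.1 p.2}

/-- extension of ancilla data by zero -/
def zext {W : Type} [Zero W] (z : Zp I → W) (S T : Tri I) : W :=
  if h : orth S T then z ⟨(S, T), h⟩ else 0

omit [Fintype I] in
theorem zext_eq {W : Type} [Zero W] (z : Zp I → W) (p : Zp I) : zext z p.1.1 p.1.2 = z p :=
  dif_pos p.2

/-- the scalar overhead of the network -/
def netC (I : Type) [Fintype I] [DecidableEq I] : ℝ :=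
  3 * (Fintype.card (Tri I)) ^ 2 * shC (Tri I) I + 4 * (Fintype.card (Tri I)) ^ 3

set_option maxHeartbeats 1000000 in
theorem network (hI : 8 ≤ Fintype.card I) (hP : ∀ a : I × I × I → ZMod 2, Cost M (rho l (q a)) P)
    (a b : Tri I × Tri I × Tri I → (Fin l → I × I × I → ZMod 2) → M)
    (z1 z2 z3 : (Tri I × Tri I) × Zp I → (Fin l → I × I × I → ZMod 2) → M) {S0 : Set M}
    (ha : ∀ u, range (a u) ⊆ S0) (hb : ∀ u, range (b u) ⊆ S0) (h1 : ∀ u, range (z1 u) ⊆ S0)
    (h2 : ∀ u, range (z2 u) ⊆ S0) (h3 : ∀ u, range (z3 u) ⊆ S0) :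
    Der S0 (((2 * (Fintype.card (Tri I)) ^ 3 + 3 * (Fintype.card (Tri I)) ^ 2 * Fintype.card (Zp I))
        * (Fintype.card I) ^ 3 - (2 * (Fintype.card (Tri I)) ^ 3
        - 3 * (Fintype.card (Tri I)) ^ 2 * (Fintype.card I) ^ 2)) * P
        + netC I * Fintype.card (Fin l → I × I × I → ZMod 2))
      ((⋃ u, Fr l (F3 I) (a u)) ∪ (⋃ u, Fr l (F3 I) (b u)) ∪ (⋃ u, Fr l (F3 I) (z1 u)) ∪
        (⋃ u, Fr l (F3 I) (z2 u)) ∪ ⋃ u, Fr l (F3 I) (z3 u)) := by
  let φ : Tri I × Tri I × Tri I → (I × I × I → ZMod 2) → ZMod 4 :=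
    fun u => w3 (uv u.1.1) (uv u.2.1.1) (uv u.2.2.1)
  let x0 := fun u => app (rho l (-φ u)) (a u)
  let y1 := fun u => b u + (1 : ℂ) • x0 u
  let x2 := fun u => x0 u + (-1 : ℂ) • y1 u
  let y3 := fun u => y1 u + (1 : ℂ) • x2 u
  let D2 : Tri I × Tri I → (I × I × I → ZMod 2) → ZMod 4 :=
    fun g => F2 (uv g.2.1) - N2 (uv g.1.1) (uv g.2.1)
  let D3 : Tri I × Tri I → (I × I × I → ZMod 2) → ZMod 4 :=
    fun g => F3 I - N3 (uv g.1.1) (uv g.2.1)
  -- shear 1
  refine Der.le (Der.step (Der.iUnion_const fun g : Tri I × Tri I =>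
    shearI orth _ _ _ 0 (F1 (uv g.1.1) (uv g.2.1)) (fun S => φ (S, g)) (fun S => x0 (S, g))
      (fun S => b (S, g)) (zext fun p => z1 (g, p)) (fun S => y1 (S, g))
      (fun T => tri_id 1 _ _ T) (fun S => mv_w hP _ _ _) (fun S => mv_A1 hI hP S _ _)
      (fun S T ho => mv_B1 hI hP S T ho _ _) (mv_F1 hP _ _) (S0 := S0) (fun S => ?_) (fun S => ?_)
      (fun S T ho => ?_)) fun A1 a1 b1 =>
    -- moves
    Der.step (Der.iUnion_const (T := fun u : Tri I × Tri I × Tri I =>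
      Fr l (D2 (u.1, u.2.2) + φ u) (x0 u) ∪ Fr l (D2 (u.1, u.2.2)) (y1 u)) fun u =>
      ((mv_d1 hI hP u.1 u.2.1 (uv u.2.2.1)).der (σ := 0 + F1 (uv u.2.1.1) (uv u.2.2.1))
        (by simp only [D2, φ]; abel) ?_).union
      ((mv_d1 hI hP u.1 u.2.1 (uv u.2.2.1)).der (σ := 0 + F1 (uv u.2.1.1) (uv u.2.2.1) - φ u)
        (by simp only [D2, φ]; abel) ?_)) fun A2 a2 b2 =>
    Der.step (Der.iUnion_const (T := fun u : (Tri I × Tri I) × Zp I =>
      Fr l (F3 I) (z1 u) ∪ Fr l (D2 u.1) (z2 u) ∪ Fr l (D3 u.1) (z3 u)) fun u =>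
      ((((mv_32 hI hP u.1.2).add (mv_21 hI hP u.1.1 (uv u.1.2.1))).der
        (σ := 0 + F1 (uv u.1.1.1) (uv u.1.2.1)) (by abel) ?_).union
      ((mv_D2 hI hP u.1.1 (uv u.1.2.1)).der (σ := 0) (by simp [D2]) ?_)).union
      ((mv_D3 hI hP u.1.1 u.1.2).der (σ := 0) (by simp [D3]) ?_)) fun A3 a3 b3 =>
    -- shear 2
    Der.step (Der.iUnion_const fun g : Tri I × Tri I =>
      shearII orth _ _ _ (D2 g) (N2 (uv g.1.1) (uv g.2.1)) (fun S => φ (g.1, S, g.2))
      (fun S => y1 (g.1, S, g.2)) (fun S => x0 (g.1, S, g.2)) (zext fun p => z2 (g, p))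
      (fun S => x2 (g.1, S, g.2))
      (fun T => tri_id (-1) _ _ T) (fun S => mv_w hP _ _ _) (fun S => mv_A2 hI hP S _ _)
      (fun S T ho => mv_B2 hI hP S T ho _ _) (mv_N2 hP _ _) (S0 := A3) (fun S => ?_) (fun S => ?_)
      (fun S T ho => ?_)) fun A4 a4 b4 =>
    -- moves
    Der.step (Der.iUnion_const (T := fun u : Tri I × Tri I × Tri I =>
      Fr l (D3 (u.1, u.2.1) + φ u) (x2 u) ∪ Fr l (D3 (u.1, u.2.1)) (y1 u)) fun u =>
      ((mv_d2 hI hP u.1 u.2.1 u.2.2).der (σ := D2 (u.1, u.2.2) + N2 (uv u.1.1) (uv u.2.2.1))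
        (by simp only [D2, D3, φ]; abel) ?_).union
      ((mv_d2 hI hP u.1 u.2.1 u.2.2).der (σ := D2 (u.1, u.2.2) + N2 (uv u.1.1) (uv u.2.2.1) - φ u)
        (by simp only [D2, D3, φ]; abel) ?_)) fun A5 a5 b5 =>
    -- shear 3
    Der.step (Der.iUnion_const fun g : Tri I × Tri I =>
      shearI orth _ _ _ (D3 g) (N3 (uv g.1.1) (uv g.2.1)) (fun S => φ (g.1, g.2, S))
      (fun S => x2 (g.1, g.2, S)) (fun S => y1 (g.1, g.2, S)) (zext fun p => z3 (g, p))
      (fun S => y3 (g.1, g.2, S))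
      (fun T => tri_id 1 _ _ T) (fun S => mv_w hP _ _ _) (fun S => mv_A3 hI hP S _ _)
      (fun S T ho => mv_B3 hI hP S T ho _ _) (mv_N3 hP _ _) (S0 := A5) (fun S => ?_) (fun S => ?_)
      (fun S T ho => ?_)) fun A6 a6 b6 =>
    ((((Der.iUnion_const (c := 0 * P) fun u => ?_).union
      (Der.iUnion_const (c := 4 * Fintype.card (Fin l → I × I × I → ZMod 2)) fun u => ?_)).union
      (Der.of_subset ?_)).union
      (Der.iUnion_const fun u => (mv_32 hI hP u.1.2).der
        (σ := D2 u.1 + N2 (uv u.1.1.1) (uv u.1.2.1)) (by simp only [D2]; abel) ?_)).union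
      (Der.of_subset ?_)) ?_
  · simp only [x0, fr_rho, zero_add, add_neg_cancel, fr_zero]; exact ha _
  · rw [fr_zero]; exact hb _
  · rw [fr_zero, zext, dif_pos ho]; exact h1 _
  · simp only [iUnion_subset_iff, union_subset_iff] at b1
    exact (b1 u.2).1.1 u.1
  · simp only [iUnion_subset_iff, union_subset_iff] at b1
    exact (b1 u.2).1.2 u.1
  · simp only [iUnion_subset_iff, union_subset_iff, zext_eq] at b1
    exact ((b1 u.1).2 u.2).trans a2
  · rw [fr_zero]; exact (h2 _).trans (a1.trans a2)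
  · rw [fr_zero]; exact (h3 _).trans (a1.trans a2)
  · simp only [iUnion_subset_iff, union_subset_iff] at b2
    exact (b2 (g.1, S, g.2)).2.trans a3
  · simp only [iUnion_subset_iff, union_subset_iff] at b2
    exact (b2 (g.1, S, g.2)).1.trans a3
  · simp only [iUnion_subset_iff, union_subset_iff] at b3
    rw [zext, dif_pos ho]
    exact (b3 (g, ⟨(S, T), ho⟩)).1.2
  · simp only [iUnion_subset_iff, union_subset_iff] at b4
    exact (b4 (u.1, u.2.2)).1.2 u.2.1
  · simp only [iUnion_subset_iff, union_subset_iff] at b4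
    exact (b4 (u.1, u.2.2)).1.1 u.2.1
  · simp only [iUnion_subset_iff, union_subset_iff] at b5
    exact (b5 (g.1, g.2, S)).1
  · simp only [iUnion_subset_iff, union_subset_iff] at b5
    exact (b5 (g.1, g.2, S)).2
  · simp only [iUnion_subset_iff, union_subset_iff] at b3
    rw [zext, dif_pos ho]
    exact (b3 (g, ⟨(S, T), ho⟩)).2.trans (a4.trans a5)
  · refine (mv_two_q (t3 (uv u.1.1) (uv u.2.1.1) (uv u.2.2.1))).der
      (σ := D3 (u.1, u.2.1) + N3 (uv u.1.1) (uv u.2.1.1) - φ u + -φ u)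
      (by simp only [D3, φ, w3]; abel) ?_
    have e : y3 u = x0 u := by simp only [y3, x2, one_smul, neg_smul]; abel
    rw [← fr_rho]
    change Fr l _ (x0 u) ⊆ _
    rw [← e]
    simp only [iUnion_subset_iff, union_subset_iff] at b6
    exact (b6 (u.1, u.2.1)).1.2 u.2.2
  · have e : b u = x2 u + (-2 : ℂ) • x2 u := by simp only [x2, y1]; module
    have e' : F3 I = D3 (u.1, u.2.1) + N3 (uv u.1.1) (uv u.2.1.1) := by simp [D3]
    have hs : Fr l (F3 I) (x2 u) ⊆ A6 := by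
      rw [e']
      simp only [iUnion_subset_iff, union_subset_iff] at b6
      exact (b6 (u.1, u.2.1)).1.1 u.2.2
    rw [e]
    exact fr_add _ hs hs
  · simp only [iUnion_subset_iff, union_subset_iff] at b3
    exact iUnion_subset fun u => (b3 u).1.1.trans (a4.trans (a5.trans a6))
  · simp only [iUnion_subset_iff, union_subset_iff, zext_eq] at b4
    exact ((b4 u.1).2 u.2).trans (a5.trans a6)
  · refine iUnion_subset fun u => ?_
    have e' : F3 I = D3 u.1 + N3 (uv u.1.1.1) (uv u.1.2.1) := by simp [D3]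
    rw [e']
    simp only [iUnion_subset_iff, union_subset_iff, zext_eq] at b6
    exact (b6 u.1).2 u.2
  · simp only [Fintype.card_prod, shP, netC]
    push_cast
    apply le_of_eq
    ring

end Crest.Agent.R324
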