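import Crest.Agent.R324.Sym

/-!
Row 324: the two shear gadgets and the frame moves attached to triples.
-/

set_option autoImplicit false

open Set Matrix

namespace Crest.Agent.R324

variable {M : Type} [AddCommGroup M] [Module ℂ M]

theorem Der.step {S T U : Set M} {c c' : ℝ} (h : Der S c T)
    (h' : ∀ S', S ⊆ S' → T ⊆ S' → Der S' c' U) : Der S (c + c') U :=
  h.trans' (h' _ subset_union_left subset_union_right)

variable {J : Type} [Fintype J] [DecidableEq J] {l : ℕ} {P : ℝ}

section Gadget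

variable {Tr I : Type} [Fintype Tr] [Fintype I] (o : Tr → Tr → Prop) [∀ S T, Decidable (o S T)]
  (B : Tr → Tr → ℂ) (Q : Tr → I → ℂ) (Pm : I → Tr → ℂ) {h : ℝ}
  (D N : (J → ZMod 2) → ZMod 4) (φ : Tr → (J → ZMod 2) → ZMod 4)

/-- number of passes in a shear -/
def shP (Tr I : Type) [Fintype Tr] [Fintype I] (o : Tr → Tr → Prop) [∀ S T, Decidable (o S T)]
    (h : ℝ) : ℝ :=
  2 * Fintype.card Tr * (h - 1) + Fintype.card {p : Tr × Tr // o p.1 p.2} * h + Fintype.card I * h

/-- scalar overhead of a shear -/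
def shC (Tr I : Type) [Fintype Tr] [Fintype I] : ℝ :=
  8 * (Fintype.card Tr) ^ 2 + 2 * Fintype.card I * Fintype.card Tr +
    Fintype.card Tr * (4 * Fintype.card Tr + 4 * Fintype.card I + 16)

omit [Fintype I] in
theorem card_pairs_le : (Fintype.card {p : Tr × Tr // o p.1 p.2} : ℝ) ≤ (Fintype.card Tr) ^ 2 := by
  have := Fintype.card_subtype_le (fun p : Tr × Tr => o p.1 p.2)
  rw [Fintype.card_prod] at this
  rw [sq]; exact_mod_cast this

omit [Fintype I] in
theorem card_filter_le' (p : Tr → Prop) [DecidablePred p] :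
    ((Finset.univ.filter p).card : ℝ) ≤ Fintype.card Tr := by
  exact_mod_cast Finset.card_le_univ _

/-- shear whose source is the upper wire -/
theorem shearI (x y : Tr → (Fin l → J → ZMod 2) → M) (z : Tr → Tr → (Fin l → J → ZMod 2) → M)
    (y' : Tr → (Fin l → J → ZMod 2) → M)
    (hid : ∀ T, y T + ∑ S ∈ Finset.univ.filter (o · T), B S T • x S +
      ∑ j, Q T j • ∑ S, Pm j S • x S = y' T)
    (m1 : ∀ S, Mv M l P 1 (φ S)) (m2 : ∀ S, Mv M l P (h - 1) (N - φ S))
    (m3 : ∀ S T, o S T → Mv M l P (h - 2) (N - φ S - φ T)) (m4 : Mv M l P h N)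
    {S0 : Set M} (hx : ∀ S, Fr l (D + φ S) (x S) ⊆ S0) (hy : ∀ T, Fr l D (y T) ⊆ S0)
    (hz : ∀ S T, o S T → Fr l D (z S T) ⊆ S0) :
    Der S0 (shP Tr I o h * P + shC Tr I * Fintype.card (Fin l → J → ZMod 2))
      ((⋃ S, Fr l (D + N) (x S)) ∪ (⋃ T, Fr l (D + N - φ T) (y' T)) ∪
        ⋃ p : {p : Tr × Tr // o p.1 p.2}, Fr l (D + N) (z p.1.1 p.1.2)) := by
  set X : ℝ := ((Fintype.card (Fin l → J → ZMod 2) : ℕ) : ℝ) with hX
  set v : ℝ := ((Fintype.card Tr : ℕ) : ℝ) with hv
  set n : ℝ := ((Fintype.card I : ℕ) : ℝ) with hn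
  have hX0 : 0 ≤ X := Nat.cast_nonneg _
  let z1 : Tr → Tr → (Fin l → J → ZMod 2) → M := fun S T => z S T + B S T • x S
  let c1 : I → (Fin l → J → ZMod 2) → M := fun j => ∑ S, Pm j S • x S
  refine Der.le (Der.step (Der.iUnion_const
    (T := fun p : {p : Tr × Tr // o p.1 p.2} => Fr l (D + φ p.1.1) (z1 p.1.1 p.1.2))
    fun p => Der.step ((m1 p.1.1).der (σ' := D + φ p.1.1) (by abel) (hz _ _ p.2)) fun S' a b =>
      fr_add _ b ((hx _).trans a)) fun S1 h01 ha => Der.step (Der.iUnion_const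
    (T := fun S => Fr l (D + N) (x S))
    fun S => (m2 S).der (by abel) ((hx S).trans h01)) fun S2 h12 hb => Der.step (Der.iUnion_const
    (T := fun j => Fr l D (c1 j))
    fun j => Der.step (fr_sum Finset.univ (Pm j) (σ := D + N) (n := v)
      (fun S _ => (subset_iUnion _ S).trans hb) (by simp [hv])) fun S' _ b =>
      m4.neg.der (by abel) b) fun S3 h23 hc => Der.step (Der.iUnion_const
    (T := fun p : {p : Tr × Tr // o p.1 p.2} => Fr l (D + N - φ p.1.2) (z1 p.1.1 p.1.2))
    fun p => (m3 _ _ p.2).der (by abel) (((subset_iUnion _ p).trans ha).trans (h12.trans h23)))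
    fun S4 h34 hd => ((Der.of_subset (hb.trans (h23.trans h34))).union (Der.iUnion_const
      (c := 2 * v * X + (2 * n * X + (4 * X + (4 * X + ((h - 1) * P + (2 * v * X + 4 * X))))))
      fun T => ?_)).union (Der.iUnion_const (c := 1 * P + 4 * X) fun p => ?_)) ?_
  · have h04 : S0 ⊆ S4 := h01.trans (h12.trans (h23.trans h34))
    refine Der.step (fr_sum (Finset.univ.filter (o · T)) (fun _ => 1) (σ := D)
      (s := fun S => z S T) (fun S hS => (hz S T (by simpa using hS)).trans h04)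
      (card_filter_le' _)) fun A1 a1 b1 => ?_
    refine Der.step (fr_sum Finset.univ (Q T) (σ := D) (s := c1) (n := n)
      (fun j _ => ((subset_iUnion _ j).trans hc).trans (h34.trans a1)) (by simp [hn]))
      fun A2 a2 b2 => ?_
    refine Der.step (fr_add (-1) ((hy T).trans (h04.trans (a1.trans a2))) (b1.trans a2))
      fun A3 a3 b3 => ?_
    refine Der.step (fr_add 1 b3 (b2.trans a3)) fun A4 a4 b4 => ?_
    refine Der.step ((m2 T).der (σ' := D + N - φ T) (by abel) b4) fun A5 a5 b5 => ?_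
    refine Der.step (fr_sum (Finset.univ.filter (o · T)) (fun _ => 1) (σ := D + N - φ T)
      (s := fun S => z1 S T) (fun S hS => ((subset_iUnion (fun p : {p : Tr × Tr // o p.1 p.2} =>
        Fr l (D + N - φ p.1.2) (z1 p.1.1 p.1.2)) ⟨(S, T), by simpa using hS⟩).trans hd).trans
        (a1.trans (a2.trans (a3.trans (a4.trans a5))))) (card_filter_le' _)) fun A6 a6 b6 => ?_
    convert fr_add 1 (b5.trans a6) b6 using 2
    rw [← hid T]
    simp only [z1, c1, one_smul, Finset.sum_add_distrib, neg_smul]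
    abel
  · refine Der.step ((m1 p.1.2).der (σ' := D + N) (by abel) ((subset_iUnion _ p).trans hd))
      fun A1 a1 b1 => ?_
    convert fr_add (-B p.1.1 p.1.2) b1
      (((subset_iUnion _ p.1.1).trans hb).trans (h23.trans (h34.trans a1))) using 2
    simp [z1]
  · have := card_pairs_le o
    rw [← hv] at this
    unfold shP shC
    rw [← hv, ← hn, ← hX]
    have h1 := mul_le_mul_of_nonneg_right this hX0
    have hv0 : 0 ≤ v := Nat.cast_nonneg _
    have hn0 : 0 ≤ n := Nat.cast_nonneg _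
    have h2 : 0 ≤ v * X := mul_nonneg hv0 hX0
    have h3 : 0 ≤ v * n * X := by positivity
    nlinarith

/-- shear whose target is the upper wire -/
theorem shearII (x y : Tr → (Fin l → J → ZMod 2) → M) (z : Tr → Tr → (Fin l → J → ZMod 2) → M)
    (y' : Tr → (Fin l → J → ZMod 2) → M)
    (hid : ∀ T, y T + ∑ S ∈ Finset.univ.filter (o · T), B S T • x S +
      ∑ j, Q T j • ∑ S, Pm j S • x S = y' T)
    (m1 : ∀ S, Mv M l P 1 (φ S)) (m2 : ∀ S, Mv M l P (h - 1) (N - φ S))
    (m3 : ∀ S T, o S T → Mv M l P (h - 2) (N - φ S - φ T)) (m4 : Mv M l P h N)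
    {S0 : Set M} (hx : ∀ S, Fr l D (x S) ⊆ S0) (hy : ∀ T, Fr l (D + φ T) (y T) ⊆ S0)
    (hz : ∀ S T, o S T → Fr l D (z S T) ⊆ S0) :
    Der S0 (shP Tr I o h * P + shC Tr I * Fintype.card (Fin l → J → ZMod 2))
      ((⋃ S, Fr l (D + N - φ S) (x S)) ∪ (⋃ T, Fr l (D + N) (y' T)) ∪
        ⋃ p : {p : Tr × Tr // o p.1 p.2}, Fr l (D + N) (z p.1.1 p.1.2)) := by
  set X : ℝ := ((Fintype.card (Fin l → J → ZMod 2) : ℕ) : ℝ) with hX
  set v : ℝ := ((Fintype.card Tr : ℕ) : ℝ) with hv
  set n : ℝ := ((Fintype.card I : ℕ) : ℝ) with hn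
  have hX0 : 0 ≤ X := Nat.cast_nonneg _
  let z1 : Tr → Tr → (Fin l → J → ZMod 2) → M := fun S T => z S T + B S T • x S
  let c1 : I → (Fin l → J → ZMod 2) → M := fun j => ∑ S, Pm j S • x S
  refine Der.le (Der.step (Der.iUnion_const
    (T := fun p : {p : Tr × Tr // o p.1 p.2} => Fr l (D + φ p.1.2) (z1 p.1.1 p.1.2))
    fun p => Der.step (fr_add _ (hz _ _ p.2) (hx _)) fun S' _ b =>
      (m1 p.1.2).der (σ' := D + φ p.1.2) (by abel) b) fun S1 h01 ha => Der.step (Der.iUnion_const
    (T := fun S => Fr l (D + N - φ S) (x S))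
    fun S => (m2 S).der (by abel) ((hx S).trans h01)) fun S2 h12 hb => Der.step (Der.iUnion_const
    (T := fun j => Fr l (D + N) (c1 j))
    fun j => Der.step (fr_sum Finset.univ (Pm j) (σ := D) (n := v)
      (fun S _ => (hx S).trans (h01.trans h12)) (by simp [hv])) fun S' _ b =>
      m4.der (by abel) b) fun S3 h23 hc => Der.step (Der.iUnion_const
    (T := fun p : {p : Tr × Tr // o p.1 p.2} => Fr l (D + N) (z p.1.1 p.1.2))
    (c := (h - 2) * P + (4 * X + 1 * P)) fun p => ?_)
    fun S4 h34 hd => ((Der.of_subset (hb.trans (h23.trans h34))).union (Der.iUnion_const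
      (c := 2 * v * X + (4 * X + ((h - 1) * P + (2 * v * X + (2 * n * X + (4 * X + 4 * X))))))
      fun T => ?_)).union (Der.of_subset hd)) ?_
  · refine Der.step ((m3 _ _ p.2).der (σ' := D + N - φ p.1.1) (by abel)
      (((subset_iUnion _ p).trans ha).trans (h12.trans h23))) fun A1 a1 b1 => ?_
    refine Der.step (fr_add (-B p.1.1 p.1.2) b1
      (((subset_iUnion _ p.1.1).trans hb).trans (h23.trans a1))) fun A2 _ b2 => ?_
    convert (m1 p.1.1).der (σ' := D + N) (by abel) b2 using 2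
    simp [z1]
  · have h14 : S1 ⊆ S4 := h12.trans (h23.trans h34)
    refine Der.step (fr_sum (Finset.univ.filter (o · T)) (fun _ => 1) (σ := D + φ T)
      (s := fun S => z1 S T) (fun S hS => ((subset_iUnion (fun p : {p : Tr × Tr // o p.1 p.2} =>
        Fr l (D + φ p.1.2) (z1 p.1.1 p.1.2)) ⟨(S, T), by simpa using hS⟩).trans ha).trans h14)
      (card_filter_le' _)) fun A1 a1 b1 => ?_
    refine Der.step (fr_add 1 ((hy T).trans (h01.trans (h14.trans a1))) b1) fun A2 a2 b2 => ?_
    refine Der.step ((m2 T).der (σ' := D + N) (by abel) b2) fun A3 a3 b3 => ?_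
    refine Der.step (fr_sum (Finset.univ.filter (o · T)) (fun _ => 1) (σ := D + N)
      (s := fun S => z S T) (fun S hS => ((subset_iUnion (fun p : {p : Tr × Tr // o p.1 p.2} =>
        Fr l (D + N) (z p.1.1 p.1.2)) ⟨(S, T), by simpa using hS⟩).trans hd).trans
        (a1.trans (a2.trans a3))) (card_filter_le' _)) fun A4 a4 b4 => ?_
    refine Der.step (fr_sum Finset.univ (Q T) (σ := D + N) (s := c1) (n := n)
      (fun j _ => ((subset_iUnion _ j).trans hc).trans
        (h34.trans (a1.trans (a2.trans (a3.trans a4))))) (by simp [hn])) fun A5 a5 b5 => ?_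
    refine Der.step (fr_add (-1) (b3.trans (a4.trans a5)) (b4.trans a5)) fun A6 a6 b6 => ?_
    convert fr_add 1 b6 (b5.trans a6) using 2
    rw [← hid T]
    simp only [z1, c1, one_smul, Finset.sum_add_distrib, neg_smul]
    abel
  · have := card_pairs_le o
    rw [← hv] at this
    unfold shP shC
    rw [← hv, ← hn, ← hX]
    have h1 := mul_le_mul_of_nonneg_right this hX0
    have hv0 : 0 ≤ v := Nat.cast_nonneg _
    have hn0 : 0 ≤ n := Nat.cast_nonneg _
    have h2 : 0 ≤ v * X := mul_nonneg hv0 hX0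
    have h3 : 0 ≤ v * n * X := by positivity
    nlinarith

end Gadget

section Triples

variable {I : Type} [Fintype I] [DecidableEq I]

/-- basis vector -/
def ev (i : I) : I → ZMod 2 := Pi.single i 1

/-- indicator vector -/
def uv (S : Finset I) : I → ZMod 2 := ∑ i ∈ S, ev i

variable (M l P) in
/-- the four-term relation holds for `Φ` up to translations -/
def Quad {E : Type} [Add E] (Φ : E → (J → ZMod 2) → ZMod 4) : Prop :=
  ∀ a b c d, Mv M l P 0 (Φ a + Φ b + Φ c + Φ d
    - (Φ (a + b + c) + Φ (a + b + d) + Φ (a + c + d) + Φ (b + c + d)))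

theorem quad_q {E : Type} [Add E] (ψ : E → J → ZMod 2) (hψ : ∀ a b, ψ (a + b) = ψ a + ψ b) :
    Quad M l P fun a => q (ψ a) := fun a b c d => by
  simp only [hψ]; exact mv_four _ _ _ _

theorem Quad.sub {E : Type} [Add E] {Φ Ψ : E → (J → ZMod 2) → ZMod 4} (h : Quad M l P Φ)
    (h' : Quad M l P Ψ) : Quad M l P fun a => Φ a - Ψ a := fun a b c d =>
  ((h a b c d).sub (h' a b c d)).congr (by simp) (by beta_reduce; abel)

theorem Quad.sum {E ι : Type} [Add E] (s : Finset ι) {Φ : ι → E → (J → ZMod 2) → ZMod 4}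
    (h : ∀ i, Quad M l P (Φ i)) : Quad M l P fun a => ∑ i ∈ s, Φ i a := fun a b c d =>
  (Mv.sum s fun i => h i a b c d).congr (by simp)
    (by simp only [Finset.sum_sub_distrib, Finset.sum_add_distrib])

variable {Φ : (I → ZMod 2) → (J → ZMod 2) → ZMod 4} {r : ℝ}

omit [Fintype I] in
theorem mv_ins (hq : Quad M l P Φ) (hr : ∀ a, Mv M l P r (Φ a)) {S : Finset I} (hS : S.card = 3)
    {x : I} (hx : x ∉ S) : Mv M l P (3 * r) (∑ i ∈ insert x S, Φ (ev i) - Φ (uv S)) := by
  obtain ⟨a, b, c, hab, hac, hbc, rfl⟩ := Finset.card_eq_three.1 hS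
  rw [Finset.sum_insert hx, uv, Finset.sum_insert (by simp [hab, hac]), Finset.sum_pair hbc,
    Finset.sum_insert (by simp [hab, hac]), Finset.sum_pair hbc, ← add_assoc (ev a)]
  exact ((((hq (ev a) (ev b) (ev c) (ev x)).add (hr (ev a + ev b + ev x))).add
    (hr (ev a + ev c + ev x))).add (hr (ev b + ev c + ev x))).congr (by ring) (by abel)

theorem mv_rest (hr : ∀ a, Mv M l P r (Φ a)) (R : Finset I) :
    Mv M l P ((Fintype.card I - R.card) * r) (∑ i, Φ (ev i) - ∑ i ∈ R, Φ (ev i)) := by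
  refine (Mv.sum Rᶜ fun i => hr (ev i)).congr ?_ ?_
  · rw [Finset.card_compl, Nat.cast_sub (Finset.card_le_univ R)]
  · rw [← Finset.sum_add_sum_compl R]; abel

theorem exists_notMem (R : Finset I) (h : R.card < Fintype.card I) : ∃ x, x ∉ R := by
  by_contra hc
  push Not at hc
  rw [Finset.eq_univ_iff_forall.2 hc] at h
  simp at h

theorem mv_A (hI : 8 ≤ Fintype.card I) (hq : Quad M l P Φ) (hr : ∀ a, Mv M l P r (Φ a))
    {S : Finset I} (hS : S.card = 3) :
    Mv M l P ((Fintype.card I - 1) * r) (∑ i, Φ (ev i) - Φ (uv S)) := by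
  obtain ⟨x, hx⟩ := exists_notMem S (by omega)
  refine ((mv_rest hr (insert x S)).add (mv_ins hq hr hS hx)).congr ?_ (by abel)
  rw [Finset.card_insert_of_notMem hx, hS]; push_cast; ring

theorem mv_B (hI : 8 ≤ Fintype.card I) (hq : Quad M l P Φ) (hr : ∀ a, Mv M l P r (Φ a))
    {S T : Finset I} (hS : S.card = 3) (hT : T.card = 3)
    (ho : (S ∩ T).card = 0 ∨ (S ∩ T).card = 2) :
    Mv M l P ((Fintype.card I - 2) * r) (∑ i, Φ (ev i) - Φ (uv S) - Φ (uv T)) := by
  have hU := Finset.card_union_add_card_inter S T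
  rcases ho with ho | ho
  · obtain ⟨x, hx⟩ := exists_notMem (S ∪ T) (by omega)
    obtain ⟨y, hy⟩ := exists_notMem (insert x (S ∪ T)) (by
      rw [Finset.card_insert_of_notMem hx]; omega)
    simp only [Finset.mem_insert, Finset.mem_union, not_or] at hx hy
    have hd : Disjoint (insert x S) (insert y T) := by
      rw [Finset.disjoint_insert_left, Finset.disjoint_insert_right,
        Finset.disjoint_iff_inter_eq_empty, ← Finset.card_eq_zero]
      simp [hx.2, hy.2.1, Ne.symm hy.1, ho]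
    refine (((mv_rest hr (insert x S ∪ insert y T)).add (mv_ins hq hr hS hx.1)).add
      (mv_ins hq hr hT hy.2.2)).congr ?_ ?_
    · rw [Finset.card_union_of_disjoint hd, Finset.card_insert_of_notMem hx.1,
        Finset.card_insert_of_notMem hy.2.2, hS, hT]
      push_cast; ring
    · rw [Finset.sum_union hd]; abel
  · obtain ⟨a, b, hab, e⟩ := Finset.card_eq_two.1 ho
    obtain ⟨c, ec⟩ := Finset.card_eq_one.1 (show (S \ T).card = 1 by
      have := Finset.card_sdiff_add_card_inter S T; omega)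
    obtain ⟨d, ed⟩ := Finset.card_eq_one.1 (show (T \ S).card = 1 by
      have := Finset.card_sdiff_add_card_inter T S; rw [Finset.inter_comm] at this; omega)
    have e1 : uv S = ev a + ev b + ev c := by
      rw [uv, ← Finset.sum_inter_add_sum_sdiff S T, e, ec, Finset.sum_pair hab, Finset.sum_singleton]
    have e2 : uv T = ev a + ev b + ev d := by
      rw [uv, ← Finset.sum_inter_add_sum_sdiff T S, Finset.inter_comm, e, ed, Finset.sum_pair hab,
        Finset.sum_singleton]
    have e3 : ∑ i ∈ S ∪ T, Φ (ev i) = Φ (ev a) + Φ (ev b) + Φ (ev c) + Φ (ev d) := by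
      rw [← Finset.union_sdiff_self_eq_union, Finset.sum_union Finset.disjoint_sdiff,
        ← Finset.sum_inter_add_sum_sdiff S T, e, ec, ed, Finset.sum_pair hab, Finset.sum_singleton,
        Finset.sum_singleton]
    refine ((((mv_rest hr (S ∪ T)).add (hq (ev a) (ev b) (ev c) (ev d))).add
      (hr (ev a + ev c + ev d))).add (hr (ev b + ev c + ev d))).congr ?_ ?_
    · rw [show (S ∪ T).card = 4 by omega]; push_cast; ring
    · rw [e1, e2, e3]; abel

/-- triples -/
abbrev Tri (I : Type) : Type := {S : Finset I // S.card = 3}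

/-- orthogonality of triples -/
def orth (S T : Tri I) : Prop := (S.1 ∩ T.1).card = 0 ∨ (S.1 ∩ T.1).card = 2

instance (S T : Tri I) : Decidable (orth S T) := by unfold orth; infer_instance

theorem tri_id {W : Type} [AddCommGroup W] [Module ℂ W] (σ : ℂ) (x : Tri I → W) (y : W)
    (T : Tri I) :
    y + ∑ S ∈ Finset.univ.filter (orth · T), (-σ * (((S.1 ∩ T.1).card : ℂ) - 1) / 2) • x S +
      ∑ j : I, (σ * ((if j ∈ T.1 then 1 else 0) - 1 / 3) / 2) •
        ∑ S : Tri I, (if j ∈ S.1 then 1 else 0 : ℂ) • x S = y + σ • x T := by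
  have h1 : ∑ j : I, (σ * ((if j ∈ T.1 then 1 else 0) - 1 / 3) / 2) •
        ∑ S : Tri I, (if j ∈ S.1 then 1 else 0 : ℂ) • x S
      = ∑ S : Tri I, (σ * (((S.1 ∩ T.1).card : ℂ) - 1) / 2) • x S := by
    simp only [Finset.smul_sum, smul_smul]
    rw [Finset.sum_comm]
    refine Finset.sum_congr rfl fun S _ => ?_
    rw [← Finset.sum_smul]
    congr 1
    have : ∀ j, σ * ((if j ∈ T.1 then 1 else 0) - 1 / 3) / 2 * (if j ∈ S.1 then 1 else 0 : ℂ)
        = σ / 2 * (if j ∈ S.1 ∩ T.1 then 1 else 0) - σ / 6 * (if j ∈ S.1 then 1 else 0) := by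
      intro j
      by_cases a : j ∈ T.1 <;> by_cases b : j ∈ S.1 <;> simp [a, b] <;> ring
    simp only [this, Finset.sum_sub_distrib, ← Finset.mul_sum, Finset.sum_boole]
    rw [Finset.filter_mem_eq_inter, Finset.filter_mem_eq_inter, Finset.univ_inter,
      Finset.univ_inter, S.2]
    push_cast; ring
  rw [h1, add_assoc, Finset.sum_filter, ← Finset.sum_add_distrib, Finset.sum_eq_single T]
  · have : ¬ orth T T := by simp [orth, T.2]
    rw [if_neg this, Finset.inter_self, T.2]
    congr 1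
    rw [zero_add]; congr 1; push_cast; ring
  · intro S _ hST
    split_ifs with ho
    · rw [← add_smul]; convert zero_smul ℂ _ using 2; ring
    · have h2 : (S.1 ∩ T.1).card ≤ 3 := (Finset.card_le_card Finset.inter_subset_left).trans S.2.le
      have h3 : (S.1 ∩ T.1).card ≠ 3 := fun h => hST (Subtype.ext (by
        have a := Finset.eq_of_subset_of_card_le (Finset.inter_subset_left (s₁ := S.1) (s₂ := T.1))
          (by rw [h, S.2])
        have b := Finset.eq_of_subset_of_card_le (Finset.inter_subset_right (s₁ := S.1) (s₂ := T.1))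
          (by rw [h, T.2])
        rw [← a, b]))
      have h4 : (S.1 ∩ T.1).card = 1 := by unfold orth at ho; omega
      simp [h4]
  · simp

end Triples

end Crest.Agent.R324
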