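import Crest.Agent.R324.Tens

/-!
Row 324: convolution operators on `𝔽₂^J` with symbol a power of `i`; frames and moves.
-/

set_option autoImplicit false

open Set Matrix

namespace Crest.Agent.R324

/-- sign character -/
noncomputable def sgn (b : ZMod 2) : ℂ := if b = 0 then 1 else -1
/-- lift of a bit -/
def lift (b : ZMod 2) : ZMod 4 := if b = 0 then 0 else 1
/-- power of `i` -/
noncomputable def ip (z : ZMod 4) : ℂ := Complex.I ^ z.val

theorem bit_cases (a : ZMod 2) : a = 0 ∨ a = 1 := by revert a; decide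

theorem sgn_add (a b : ZMod 2) : sgn (a + b) = sgn a * sgn b := by
  have h3 : (1 + 1 : ZMod 2) = 0 := by decide
  rcases bit_cases a with rfl | rfl <;> rcases bit_cases b with rfl | rfl <;> simp [sgn, h3]

theorem sgn_zero : sgn 0 = 1 := by simp [sgn]

theorem sgn_sum {ι : Type*} (s : Finset ι) (f : ι → ZMod 2) :
    sgn (∑ i ∈ s, f i) = ∏ i ∈ s, sgn (f i) := by
  classical
  induction s using Finset.induction_on with
  | empty => simp [sgn]
  | insert a s ha ih => rw [Finset.sum_insert ha, Finset.prod_insert ha, sgn_add, ih]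

theorem ip_add (a b : ZMod 4) : ip (a + b) = ip a * ip b := by
  unfold ip
  rw [ZMod.val_add, ← pow_add]
  conv_rhs => rw [← Nat.div_add_mod (a.val + b.val) 4, pow_add, pow_mul, Complex.I_pow_four]
  simp

theorem ip_zero : ip 0 = 1 := by simp [ip]

theorem ip_sum {ι : Type*} (s : Finset ι) (f : ι → ZMod 4) :
    ip (∑ i ∈ s, f i) = ∏ i ∈ s, ip (f i) := by
  classical
  induction s using Finset.induction_on with
  | empty => simp [ip]
  | insert a s ha ih => rw [Finset.sum_insert ha, Finset.prod_insert ha, ip_add, ih]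

theorem ip_lift (b : ZMod 2) : ip (lift b) = al + be * sgn b := by
  have h1 : (1 : ZMod 4).val = 1 := by decide
  rcases bit_cases b with rfl | rfl
  · simp [ip, lift, sgn, al_add_be]
  · simp [ip, lift, sgn, al, be, h1]; ring

theorem ip_two_lift (b : ZMod 2) : ip (2 * lift b) = sgn b := by
  have h1 : (2 : ZMod 4).val = 2 := by decide
  rcases bit_cases b with rfl | rfl
  · simp [ip, lift, sgn]
  · simp [ip, lift, sgn, h1]

section Kap

variable {J : Type} [Fintype J] [DecidableEq J]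

/-- dot product -/
def dot (a ξ : J → ZMod 2) : ZMod 2 := ∑ j, a j * ξ j

omit [DecidableEq J] in
theorem dot_add (a b ξ : J → ZMod 2) : dot (a + b) ξ = dot a ξ + dot b ξ := by
  simp [dot, add_mul, Finset.sum_add_distrib]

theorem sum_sgn_dot (x y : J → ZMod 2) :
    ∑ ξ, sgn (dot x ξ) * sgn (dot y ξ) = if y = x then 2 ^ Fintype.card J else 0 := by
  simp only [← sgn_add, ← dot_add]
  simp only [dot, sgn_sum]
  rw [← Fintype.piFinset_univ, ← Finset.prod_univ_sum (fun _ => Finset.univ)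
    (fun j b => sgn ((x + y) j * b))]
  have h : ∀ c : ZMod 2, ∑ b : ZMod 2, sgn (c * b) = if c = 0 then 2 else 0 := fun c => by
    have : (Finset.univ : Finset (ZMod 2)) = {0, 1} := by decide
    rw [this, Finset.sum_pair (by decide)]
    rcases bit_cases c with rfl | rfl
    · simp [sgn]; norm_num
    · simp [sgn]
  simp only [h]
  have h2 : ∀ a b : ZMod 2, a + b = 0 ↔ b = a := by decide
  split_ifs with e
  · subst e
    simp [h2]
  · obtain ⟨j, hj⟩ := Function.ne_iff.1 e
    exact Finset.prod_eq_zero (Finset.mem_univ j) (if_neg (by simpa [h2] using hj))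

/-- the convolution operator with symbol `i ^ σ` -/
noncomputable def kap (σ : (J → ZMod 2) → ZMod 4) : Matrix (J → ZMod 2) (J → ZMod 2) ℂ :=
  Matrix.of fun x y => (∑ ξ, ip (σ ξ) * (sgn (dot x ξ) * sgn (dot y ξ))) / 2 ^ Fintype.card J

omit [DecidableEq J] in
theorem dot_comm (a b : J → ZMod 2) : dot a b = dot b a := by simp [dot, mul_comm]

theorem kap_add (σ σ' : (J → ZMod 2) → ZMod 4) : kap (σ + σ') = kap σ * kap σ' := by
  ext x z
  simp only [kap, Matrix.of_apply, Matrix.mul_apply, Pi.add_apply, ip_add]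
  have h : ∀ y, (∑ ξ, ip (σ ξ) * (sgn (dot x ξ) * sgn (dot y ξ))) / 2 ^ Fintype.card J *
      ((∑ ξ, ip (σ' ξ) * (sgn (dot y ξ) * sgn (dot z ξ))) / 2 ^ Fintype.card J)
      = ∑ ξ, ∑ η, (ip (σ ξ) * sgn (dot x ξ) * ip (σ' η) * sgn (dot z η)
        / (2 ^ Fintype.card J * 2 ^ Fintype.card J)) * (sgn (dot ξ y) * sgn (dot η y)) := by
    intro y
    rw [div_mul_div_comm, Finset.sum_mul_sum, Finset.sum_div]
    refine Finset.sum_congr rfl fun ξ _ => ?_
    rw [Finset.sum_div]
    refine Finset.sum_congr rfl fun η _ => ?_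
    rw [dot_comm ξ y, dot_comm η y]; ring
  simp only [h]
  rw [Finset.sum_comm, Finset.sum_div]
  refine Finset.sum_congr rfl fun ξ _ => ?_
  rw [Finset.sum_comm]
  simp only [← Finset.mul_sum, sum_sgn_dot, mul_ite, mul_zero, Finset.sum_ite_eq',
    Finset.mem_univ, if_true]
  field_simp

/-- symbol of a pass along `a` -/
def q (a : J → ZMod 2) : (J → ZMod 2) → ZMod 4 := fun ξ => lift (dot a ξ)
/-- symbol of the translation by `a` -/
def tau (a : J → ZMod 2) : (J → ZMod 2) → ZMod 4 := fun ξ => 2 * lift (dot a ξ)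

theorem kap_tau (a : J → ZMod 2) : kap (tau a) = mono (fun x => x + a) 1 := by
  ext x y
  have h : ∀ ξ, ip (tau a ξ) * (sgn (dot x ξ) * sgn (dot y ξ)) =
      sgn (dot (x + a) ξ) * sgn (dot y ξ) := by
    intro ξ; rw [tau, ip_two_lift, dot_add, sgn_add]; ring
  simp only [kap, mono, Matrix.of_apply, h, sum_sgn_dot]
  split_ifs <;> simp

theorem kap_q (a : J → ZMod 2) : kap (q a) = gm fun x => x + a := by
  ext x y
  have h : ∀ ξ, ip (q a ξ) * (sgn (dot x ξ) * sgn (dot y ξ)) =
      al * (sgn (dot x ξ) * sgn (dot y ξ)) + be * (sgn (dot (x + a) ξ) * sgn (dot y ξ)) := by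
    intro ξ; rw [q, ip_lift, dot_add, sgn_add]; ring
  simp only [kap, gm, Matrix.of_apply, h, Finset.sum_add_distrib, ← Finset.mul_sum, sum_sgn_dot]
  split_ifs <;> field_simp <;> ring

theorem kap_zero : kap (0 : (J → ZMod 2) → ZMod 4) = 1 := by
  ext x y
  simp only [kap, Matrix.of_apply, Pi.zero_apply, ip_zero, one_mul, sum_sgn_dot, Matrix.one_apply,
    eq_comm (a := y)]
  split_ifs <;> simp

theorem dot_single (j : J) (ξ : J → ZMod 2) : dot (Pi.single j 1) ξ = ξ j := by
  simp [dot, Pi.single_apply]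

theorem kap_top : kap (∑ j : J, q (Pi.single j 1)) = CC J := by
  ext x y
  simp only [kap, Matrix.of_apply, Finset.sum_apply, q, dot_single, ip_sum]
  simp only [dot, sgn_sum, ← Finset.prod_mul_distrib]
  rw [← Fintype.piFinset_univ, ← Finset.prod_univ_sum (fun _ => Finset.univ)
    (fun j b => ip (lift b) * (sgn (x j * b) * sgn (y j * b))), ← Finset.card_univ,
    ← Finset.prod_const, ← Finset.prod_div_distrib]
  refine Finset.prod_congr rfl fun j _ => ?_
  have : (Finset.univ : Finset (ZMod 2)) = {0, 1} := by decide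
  rw [this, Finset.sum_pair (by decide)]
  have h3 : (1 + 1 : ZMod 2) = 0 := by decide
  simp only [ip_lift]
  rcases bit_cases (x j) with h | h <;> rcases bit_cases (y j) with h' | h' <;>
    simp [h, h', C0, gm, sgn, h3] <;> ring

/-- the `l`-fold tensor power -/
noncomputable def rho (l : ℕ) (σ : (J → ZMod 2) → ZMod 4) :
    Matrix (Fin l → J → ZMod 2) (Fin l → J → ZMod 2) ℂ := tens fun _ : Fin l => kap σ

theorem rho_add (l : ℕ) (σ σ' : (J → ZMod 2) → ZMod 4) :
    rho l (σ + σ') = rho l σ * rho l σ' := by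
  simp only [rho, kap_add, tens_mul]

theorem rho_zero (l : ℕ) : rho l (0 : (J → ZMod 2) → ZMod 4) = 1 := by
  simp only [rho, kap_zero, tens_one]

theorem rho_top (l : ℕ) : CC (Fin l × J) = (rho l (∑ j : J, q (Pi.single j 1))).submatrix
    (Equiv.curry _ _ _) (Equiv.curry _ _ _) := by
  ext x y
  simp [rho, kap_top, CC, tens, Fintype.prod_prod_type]

variable (M : Type) [AddCommGroup M] [Module ℂ M]

theorem cost_rho_tau (l : ℕ) (a : J → ZMod 2) : Cost M (rho l (tau a)) 0 := by
  simp only [rho, kap_tau, tens_mono]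
  convert cost_sel (M := M) (fun (x : Fin l → J → ZMod 2) k => x k + a) using 2
  ext; simp

theorem cost_rho_q (l : ℕ) {t : ℝ} (ht : 0 ≤ t) (hg : ∀ j ≤ l, GoodAt M j t) (a : J → ZMod 2) :
    Cost M (rho l (q a)) (t * Fintype.card (Fin l → J → ZMod 2)) := by
  simp only [rho, kap_q]
  refine cost_layer (fun _ x => x + a) (fun _ x => ?_) ht (by simpa using hg)
  ext j
  have : ∀ u v : ZMod 2, u + v + v = u := by decide
  exact this _ _

variable (l : ℕ) (P : ℝ)

/-- the frame change `δ` costs `r` passes in both directions -/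
def Mv (r : ℝ) (δ : (J → ZMod 2) → ZMod 4) : Prop :=
  Cost M (rho l δ) (r * P) ∧ Cost M (rho l (-δ)) (r * P)

variable {M l P}

theorem Mv.add {r r' : ℝ} {δ δ' : (J → ZMod 2) → ZMod 4} (h : Mv M l P r δ) (h' : Mv M l P r' δ') :
    Mv M l P (r + r') (δ + δ') := by
  unfold Mv
  rw [neg_add, rho_add, rho_add, add_mul]
  exact ⟨h.1.mul h'.1, h.2.mul h'.2⟩

theorem Mv.neg {r : ℝ} {δ : (J → ZMod 2) → ZMod 4} (h : Mv M l P r δ) : Mv M l P r (-δ) :=
  ⟨h.2, by rw [neg_neg]; exact h.1⟩

theorem Mv.sub {r r' : ℝ} {δ δ' : (J → ZMod 2) → ZMod 4} (h : Mv M l P r δ) (h' : Mv M l P r' δ') :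
    Mv M l P (r + r') (δ - δ') := by
  rw [sub_eq_add_neg]; exact h.add h'.neg

theorem Mv.congr {r r' : ℝ} {δ δ' : (J → ZMod 2) → ZMod 4} (h : Mv M l P r δ) (hr : r = r')
    (hδ : δ = δ') : Mv M l P r' δ' := hr ▸ hδ ▸ h

theorem mv_zero : Mv M l P 0 (0 : (J → ZMod 2) → ZMod 4) := by
  unfold Mv
  rw [neg_zero, rho_zero, zero_mul]
  exact ⟨cost_one, cost_one⟩

theorem Mv.sum {ι : Type*} (s : Finset ι) {r : ℝ} {δ : ι → (J → ZMod 2) → ZMod 4}
    (h : ∀ i, Mv M l P r (δ i)) : Mv M l P (s.card * r) (∑ i ∈ s, δ i) := by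
  classical
  induction s using Finset.induction_on with
  | empty => simpa using mv_zero
  | insert a s ha ih =>
    rw [Finset.sum_insert ha, Finset.card_insert_of_notMem ha]
    exact ((h a).add ih).congr (by push_cast; ring) rfl

theorem mv_tau (a : J → ZMod 2) : Mv M l P 0 (tau a) := by
  have : -tau a = tau a := by
    ext ξ
    have : ∀ b, -(2 * lift b) = 2 * lift b := by decide
    exact this _
  unfold Mv
  rw [this, zero_mul]
  exact ⟨cost_rho_tau M l a, cost_rho_tau M l a⟩

theorem mv_q {a : J → ZMod 2} (h : Cost M (rho l (q a)) P) : Mv M l P 1 (q a) := by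
  have : -q a = q a + tau a := by
    ext ξ
    have : ∀ b, -lift b = lift b + 2 * lift b := by decide
    exact this _
  unfold Mv
  rw [this, one_mul, rho_add]
  exact ⟨h, by simpa using h.mul (cost_rho_tau M l a)⟩

theorem mv_two_q (a : J → ZMod 2) : Mv M l P 0 (q a + q a) :=
  (mv_tau a).congr rfl (by ext ξ; simp [q, tau, two_mul])

theorem mv_four (a b c d : J → ZMod 2) :
    Mv M l P 0 (q a + q b + q c + q d
      - (q (a + b + c) + q (a + b + d) + q (a + c + d) + q (b + c + d))) := by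
  refine (mv_tau (a + b + c + d)).congr rfl ?_
  ext ξ
  simp only [q, tau, dot_add, Pi.add_apply, Pi.sub_apply]
  generalize dot a ξ = x
  generalize dot b ξ = y
  generalize dot c ξ = z
  generalize dot d ξ = w
  revert x y z w
  decide

variable (l) in
/-- the values held by a wire carrying the logical array `s` in the frame `σ` -/
def Fr (σ : (J → ZMod 2) → ZMod 4) (s : (Fin l → J → ZMod 2) → M) : Set M :=
  range (app (rho l σ) s)

theorem Mv.der {r : ℝ} {δ σ σ' : (J → ZMod 2) → ZMod 4} (h : Mv M l P r δ) (e : σ' = δ + σ)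
    {s : (Fin l → J → ZMod 2) → M} {S : Set M} (hS : Fr l σ s ⊆ S) :
    Der S (r * P) (Fr l σ' s) := by
  unfold Fr
  rw [e, rho_add, app_mul]
  exact (h.1 _).left hS

theorem fr_sum {ι : Type*} (T : Finset ι) (β : ι → ℂ) {σ : (J → ZMod 2) → ZMod 4}
    {s : ι → (Fin l → J → ZMod 2) → M} {S : Set M} (hS : ∀ j ∈ T, Fr l σ (s j) ⊆ S) {n : ℝ}
    (hn : (T.card : ℝ) ≤ n) :
    Der S (2 * n * Fintype.card (Fin l → J → ZMod 2)) (Fr l σ (∑ j ∈ T, β j • s j)) := by
  have := Der.iUnion_const (S := S)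
    (T := fun p : Fin l → J → ZMod 2 => {∑ j ∈ T, β j • app (rho l σ) (s j) p})
    fun p => Der.sum T β fun j hj => hS j hj (mem_range_self p)
  refine this.mono subset_rfl ?_ ?_
  · rw [mul_comm]; gcongr
  · rintro _ ⟨p, rfl⟩
    refine mem_iUnion.2 ⟨p, ?_⟩
    have := map_sum (appL (M := M) (rho l σ)) (fun j => β j • s j) T
    simp only [map_smul] at this
    have h2 := congrFun this p
    rw [Finset.sum_apply] at h2
    exact h2

theorem fr_add {σ : (J → ZMod 2) → ZMod 4} {s s' : (Fin l → J → ZMod 2) → M} (β : ℂ) {S : Set M}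
    (hS : Fr l σ s ⊆ S) (hS' : Fr l σ s' ⊆ S) :
    Der S (4 * Fintype.card (Fin l → J → ZMod 2)) (Fr l σ (s + β • s')) := by
  have := fr_sum (Finset.univ : Finset Bool) (fun b => if b then 1 else β) (σ := σ)
    (s := fun b => if b then s else s') (S := S) (fun b _ => by cases b <;> simpa) (n := 2)
    (by simp)
  simpa [show (2 : ℝ) * 2 = 4 by norm_num] using this

theorem fr_rho (σ σ' : (J → ZMod 2) → ZMod 4) (s : (Fin l → J → ZMod 2) → M) :
    Fr l σ (app (rho l σ') s) = Fr l (σ + σ') s := by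
  unfold Fr; rw [rho_add, app_mul]

theorem fr_zero (s : (Fin l → J → ZMod 2) → M) : Fr l 0 s = range s := by
  unfold Fr; rw [rho_zero, app_one]

end Kap

end Crest.Agent.R324
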