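import Crest.Agent.R324.Der

/-!
Row 324: tensor products of two-sparse layers.
-/

set_option autoImplicit false

open Set Matrix
open scoped Kronecker

namespace Crest.Agent.R324

/-- `(1+i)/2` -/
noncomputable def al : ℂ := (1 + Complex.I) / 2
/-- `(1-i)/2` -/
noncomputable def be : ℂ := (1 - Complex.I) / 2

theorem al_add_be : al + be = 1 := by unfold al be; ring

/-- tensor product of a family of matrices -/
def tens {κ : Type*} [Fintype κ] {ι ι' : κ → Type*} (g : ∀ k, Matrix (ι k) (ι' k) ℂ) :
    Matrix (∀ k, ι k) (∀ k, ι' k) ℂ := Matrix.of fun x y => ∏ k, g k (x k) (y k)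

theorem tens_mul {κ : Type*} [Fintype κ] [DecidableEq κ] {ι ι' ι'' : κ → Type*}
    [∀ k, Fintype (ι' k)] (g : ∀ k, Matrix (ι k) (ι' k) ℂ) (g' : ∀ k, Matrix (ι' k) (ι'' k) ℂ) :
    tens (fun k => g k * g' k) = tens g * tens g' := by
  ext x z
  simp only [tens, Matrix.of_apply, Matrix.mul_apply]
  rw [Finset.prod_univ_sum, Fintype.piFinset_univ]
  simp only [Finset.prod_mul_distrib]

theorem tens_mono {κ : Type*} [Fintype κ] {ι ι' : κ → Type*} [∀ k, DecidableEq (ι' k)]
    (σ : ∀ k, ι k → ι' k) (d : ∀ k, ι k → ℂ) :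
    tens (fun k => mono (σ k) (d k)) = mono (fun x k => σ k (x k)) (fun x => ∏ k, d k (x k)) := by
  ext x y
  simp only [tens, mono, Matrix.of_apply]
  split_ifs with h
  · subst h; simp
  · obtain ⟨k, hk⟩ := Function.ne_iff.1 h
    exact Finset.prod_eq_zero (Finset.mem_univ k) (if_neg hk)

theorem mono_id {ι : Type*} [DecidableEq ι] : mono (id : ι → ι) 1 = (1 : Matrix ι ι ℂ) := by
  ext p q; simp [mono, Matrix.one_apply, eq_comm]

theorem tens_one {κ : Type*} [Fintype κ] {ι : κ → Type*} [∀ k, DecidableEq (ι k)] :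
    tens (fun k => (1 : Matrix (ι k) (ι k) ℂ)) = 1 := by
  simp only [← mono_id, tens_mono]
  congr 1
  ext; simp

/-- the basic layer `α + β P_μ` -/
noncomputable def gm {ι : Type*} [DecidableEq ι] (μ : ι → ι) : Matrix ι ι ℂ :=
  Matrix.of fun p q => (if q = p then al else 0) + (if q = μ p then be else 0)

theorem gm_id {ι : Type*} [DecidableEq ι] : gm (id : ι → ι) = 1 := by
  ext p q
  simp only [gm, Matrix.of_apply, id, Matrix.one_apply, eq_comm (a := q)]
  split_ifs <;> simp [al_add_be]

/-- the basic `2 × 2` matrix -/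
noncomputable def C0 : Matrix (ZMod 2) (ZMod 2) ℂ := gm fun b => b + 1

/-- tensor power of the basic matrix -/
noncomputable def CC (κ : Type) [Fintype κ] : Matrix (κ → ZMod 2) (κ → ZMod 2) ℂ :=
  tens fun _ : κ => C0

variable {M : Type} [AddCommGroup M] [Module ℂ M]

theorem cost_gm {ι : Type*} [Fintype ι] [DecidableEq ι] (μ : ι → ι) :
    Cost M (gm μ) (3 * Fintype.card ι) := fun x => by
  have := Der.iUnion_const (S := range x) (T := fun p : ι => {al • x p + be • x (μ p)})
    fun p => ((Der.smul al (mem_range_self p)).union (Der.smul be (mem_range_self (μ p)))).trans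
      (Der.add (Or.inl rfl) (Or.inr rfl))
  refine this.mono subset_rfl (le_of_eq (by ring)) ?_
  rintro _ ⟨p, rfl⟩
  refine mem_iUnion.2 ⟨p, ?_⟩
  simp [app, gm, add_smul, Finset.sum_add_distrib]

theorem CC_equiv {κ κ' : Type} [Fintype κ] [Fintype κ'] (e : κ ≃ κ') :
    CC κ = (CC κ').submatrix (e.arrowCongr (Equiv.refl _)) (e.arrowCongr (Equiv.refl _)) := by
  ext x y
  simp only [CC, tens, Matrix.of_apply, Matrix.submatrix_apply]
  rw [← e.prod_comp]
  simp

theorem CC_sum (κ κ' : Type) [Fintype κ] [Fintype κ'] :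
    CC (κ ⊕ κ') = (CC κ ⊗ₖ CC κ').submatrix (Equiv.sumArrowEquivProdArrow _ _ _)
      (Equiv.sumArrowEquivProdArrow _ _ _) := by
  ext x y
  simp [CC, tens, Fintype.prod_sum_type]

variable (M) in
/-- per-element cost `t` for tensor powers of order `j` -/
def GoodAt (j : ℕ) (t : ℝ) : Prop := Cost M (CC (Fin j)) (t * 2 ^ j)

theorem GoodAt.cost {j : ℕ} {t : ℝ} (h : GoodAt M j t) (κ : Type) [Fintype κ] [DecidableEq κ]
    (hκ : Fintype.card κ = j) : Cost M (CC κ) (t * 2 ^ j) := by
  rw [CC_equiv (Fintype.equivFinOfCardEq hκ)]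
  exact Cost.submatrix h _ _

theorem goodAt_base (j : ℕ) : GoodAt M j (3 * j) := by
  induction j with
  | zero =>
    have : CC (Fin 0) = 1 := by ext x y; rw [Subsingleton.elim x y]; simp [CC, tens]
    unfold GoodAt
    rw [this]; simpa using cost_one
  | succ j ih =>
    unfold GoodAt at *
    rw [CC_equiv (finSumFinEquiv (m := j) (n := 1)).symm, CC_sum]
    refine Cost.submatrix (Cost.submatrix ?_ _ _) _ _
    have h1 : Cost M (CC (Fin 1)) 6 := by
      have : CC (Fin 1) = C0.submatrix (Equiv.funUnique _ _) (Equiv.funUnique _ _) := by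
        ext x y; simp [CC, tens]
      rw [this]
      refine Cost.submatrix ((cost_gm _).le ?_) _ _
      norm_num
    have := (ih.kron_one (Fin 1 → ZMod 2)).mul (h1.one_kron (Fin j → ZMod 2))
    rw [← Matrix.mul_kronecker_mul, Matrix.mul_one, Matrix.one_mul] at this
    refine this.le (le_of_eq ?_)
    simp; ring

section Layer

variable {κ : Type} [Fintype κ] [DecidableEq κ] {ι : κ → Type} [∀ k, Fintype (ι k)]
  [∀ k, DecidableEq (ι k)] (μ : ∀ k, ι k → ι k)

/-- parametrisation of an orbit -/
def orb (r : ∀ k, ι k) (s : {k // μ k (r k) ≠ r k} → ZMod 2) : ∀ k, ι k :=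
  fun k => if h : μ k (r k) ≠ r k then (if s ⟨k, h⟩ = 0 then r k else μ k (r k)) else r k

omit [Fintype κ] [DecidableEq κ] [∀ k, Fintype (ι k)] in
theorem orb_injective (r : ∀ k, ι k) : Function.Injective (orb μ r) := by
  intro s s' h
  ext ⟨k, hk⟩
  have := congrFun h k
  simp only [orb, dif_pos hk] at this
  have h2 : ∀ a b : ZMod 2, (a = 0 ↔ b = 0) → a = b := by decide
  apply h2
  split_ifs at this with h3 h4 h4
  · simp [h3, h4]
  · exact (hk this.symm).elim
  · exact (hk this).elim
  · simp [h3, h4]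

omit [Fintype κ] [DecidableEq κ] [∀ k, Fintype (ι k)] in
theorem orb_surj (r y : ∀ k, ι k) (h1 : ∀ k, y k = r k ∨ y k = μ k (r k)) :
    orb μ r (fun k => if y k.1 = r k.1 then 0 else 1) = y := by
  funext k
  simp only [orb]
  by_cases h : y k = r k
  · simp [h]
  · have h2 := (h1 k).resolve_left h
    have h3 : μ k (r k) ≠ r k := h2 ▸ h
    simp only [dif_pos h3, h, if_false, one_ne_zero]
    exact h2.symm

theorem app_orb (hμ : ∀ k, Function.Involutive (μ k)) (x : (∀ k, ι k) → M) (r : ∀ k, ι k)
    (s : {k // μ k (r k) ≠ r k} → ZMod 2) :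
    app (tens fun k => gm (μ k)) x (orb μ r s) = app (CC _) (x ∘ orb μ r) s := by
  symm
  refine Fintype.sum_of_injective _ (orb_injective μ r) _ _ (fun y hy => ?_) (fun s' => ?_)
  · suffices tens (fun k => gm (μ k)) (orb μ r s) y = 0 by rw [this, zero_smul]
    by_contra hne
    apply hy
    have h1 : ∀ k, y k = r k ∨ y k = μ k (r k) := fun k => by
      have := Finset.prod_ne_zero_iff.1 hne k (Finset.mem_univ k)
      by_contra hc
      push Not at hc
      apply this
      simp only [gm, orb, Matrix.of_apply]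
      split_ifs <;> simp_all [hμ k (r k)]
    exact ⟨_, orb_surj μ r y h1⟩
  · simp only [Function.comp, CC, tens, Matrix.of_apply]
    congr 1
    rw [← Fintype.prod_subtype_mul_prod_subtype (fun k => μ k (r k) ≠ r k)]
    have h1 : ∏ k : {k // ¬ μ k (r k) ≠ r k}, gm (μ k) (orb μ r s k) (orb μ r s' k) = 1 := by
      refine Finset.prod_eq_one fun k _ => ?_
      have hk := k.2
      simp only [orb, dif_neg hk, gm, Matrix.of_apply]
      rw [not_not.1 hk]
      simp [al_add_be]
    rw [h1, mul_one]
    refine Finset.prod_congr rfl fun k _ => ?_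
    have hk := k.2
    have hk' := hk.symm
    simp only [orb, dif_pos hk, gm, C0, Matrix.of_apply, Subtype.coe_eta]
    have h2 : ∀ a : ZMod 2, a = 0 ∨ a = 1 := by decide
    have h3 : (1 + 1 : ZMod 2) = 0 := by decide
    rcases h2 (s k) with h | h <;> rcases h2 (s' k) with h' | h' <;>
      simp [h, h', hk, hk', h3, hμ k (r k)]

theorem cost_layer (hμ : ∀ k, Function.Involutive (μ k)) {t : ℝ} (ht : 0 ≤ t)
    (hg : ∀ j ≤ Fintype.card κ, GoodAt M j t) :
    Cost M (tens fun k => gm (μ k)) (t * Fintype.card (∀ k, ι k)) := fun x => by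
  classical
  let ord : ∀ k, ι k → Fin (Fintype.card (ι k)) := fun k => Fintype.equivFin (ι k)
  have hord : ∀ k, Function.Injective (ord k) := fun k => (Fintype.equivFin (ι k)).injective
  let R := {r : ∀ k, ι k // ∀ k, ord k (r k) ≤ ord k (μ k (r k))}
  have h1 := Der.iUnion (S := range x)
    (T := fun r : R => range (app (CC {k // μ k (r.1 k) ≠ r.1 k}) (x ∘ orb μ r.1)))
    fun r => (((hg _ (Fintype.card_subtype_le _)).cost _ rfl) _).left (range_comp_subset_range _ _)
  refine h1.mono subset_rfl ?_ ?_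
  · rw [← Finset.mul_sum]
    refine mul_le_mul_of_nonneg_left ?_ ht
    have h2 : Fintype.card (Σ r : R, {k // μ k (r.1 k) ≠ r.1 k} → ZMod 2)
        ≤ Fintype.card (∀ k, ι k) := by
      refine Fintype.card_le_of_injective (fun z => orb μ z.1.1 z.2) ?_
      rintro ⟨r, s⟩ ⟨r', s'⟩ h
      have hr : r = r' := by
        refine Subtype.ext (funext fun k => ?_)
        have e := congrFun h k
        have a1 := r.2 k
        have a2 := r'.2 k
        have b1 : orb μ r.1 s k = r.1 k ∨ orb μ r.1 s k = μ k (r.1 k) := by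
          simp only [orb]; split_ifs <;> simp
        have b2 : orb μ r'.1 s' k = r'.1 k ∨ orb μ r'.1 s' k = μ k (r'.1 k) := by
          simp only [orb]; split_ifs <;> simp
        simp only at e
        rcases b1 with b1 | b1 <;> rcases b2 with b2 | b2
        · rw [← b1, e, b2]
        · have c : r.1 k = μ k (r'.1 k) := by rw [← b1, e, b2]
          rw [c, hμ k] at a1
          rw [c]; exact hord k (le_antisymm a1 a2)
        · have c : r'.1 k = μ k (r.1 k) := by rw [← b2, ← e, b1]
          rw [c, hμ k] at a2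
          rw [c]; exact hord k (le_antisymm a1 a2)
        · exact (hμ k).injective (by rw [← b1, e, b2])
      subst hr
      have hs : s = s' := orb_injective μ r.1 h
      rw [hs]
    rw [Fintype.card_sigma] at h2
    simp only [Fintype.card_fun, ZMod.card] at h2
    exact_mod_cast h2
  · rintro _ ⟨y, rfl⟩
    let r : ∀ k, ι k := fun k => if ord k (y k) ≤ ord k (μ k (y k)) then y k else μ k (y k)
    have hr : ∀ k, ord k (r k) ≤ ord k (μ k (r k)) := fun k => by
      simp only [r]
      split_ifs with h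
      · exact h
      · rw [hμ k]; exact (not_le.1 h).le
    have hy : ∀ k, y k = r k ∨ y k = μ k (r k) := fun k => by
      simp only [r]
      split_ifs with h
      · exact Or.inl rfl
      · exact Or.inr (hμ k _).symm
    have e := orb_surj μ r y hy
    exact mem_iUnion.2 ⟨⟨r, hr⟩, _, by rw [← app_orb μ hμ, e]⟩

end Layer

end Crest.Agent.R324
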